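import Vale.Agent.P095.SI.NU.Instances
import Vale.Agent.P095.Nonunital.LimTrace

/-!
# P095 (SI): comparison by traces gives the abstract comparison of the relative modules

Recipe. Given pairs `(g, h)`, `(b, c)` of `A` pass to plateau functions `(g₁, g₂)`, `(b₁, b₂)` so
that `τ (g₂ g₂)`, `τ (b₂ b₂)` are finite. By simplicity `τ (g₂ g₂) ≤ C τ (c^8)` and
`τ (b₂ b₂) ≤ C' τ (c^8)`. Normalise at `b₂`: `d ((heh - ε)+) ≤ τ (heh) / ε ≤ η C / ε` and
`d ((cqc - δ)+) ≥ τ (cqc) - δ ≥ κ / C' - η - δ`. A trace exists, so the second element is nonzero.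
-/

open scoped NNReal ENNReal

namespace Vale.P095.SI.NU

open Vale.P095.Nonunital Vale.P095.SI Unitization

variable {A : Type*} [NonUnitalCStarAlgebra A]

/-- Small in all weights below the unit pairs inside `D`. -/
def SmallW (D : Finset (Unitization ℂ A)) (η : ℝ) (x : Unitization ℂ A) : Prop :=
  ∀ p : UnitPair A, (inr p.e : Unitization ℂ A) ∈ D → (inr p.c : Unitization ℂ A) ∈ D →
    ∀ τ : TraceWeight A, ∀ hτ : p.Normed τ, p.val τ hτ x ≤ η * (‖p.bi‖ * ‖p.bi‖ + 1)

/-- At least the proportion `κ` in all weights below the unit pairs inside `D`. -/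
def LargeW (D : Finset (Unitization ℂ A)) (κ η : ℝ) (x : Unitization ℂ A) : Prop :=
  ∀ p : UnitPair A, (inr p.e : Unitization ℂ A) ∈ D → (inr p.c : Unitization ℂ A) ∈ D →
    ∀ τ : TraceWeight A, ∀ hτ : p.Normed τ,
      κ * p.val τ hτ 1 - η * (‖p.bi‖ * ‖p.bi‖ + 1) ≤ p.val τ hτ x

theorem weightW_mono (D D' : Finset (Unitization ℂ A)) (hD : D ⊆ D') (η η' κ : ℝ) (hη : η' ≤ η)
    (x : Unitization ℂ A) :
    (SmallW D' η' x → SmallW D η x) ∧ (LargeW D' κ η' x → LargeW D κ η x) := by
  constructor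
  · exact fun h p h1 h2 τ hτ => (h p (hD h1) (hD h2) τ hτ).trans
      (mul_le_mul_of_nonneg_right hη (by positivity))
  · exact fun h p h1 h2 τ hτ => (sub_le_sub_left
      (mul_le_mul_of_nonneg_right hη (by positivity)) _).trans (h p (hD h1) (hD h2) τ hτ)

section Weights

attribute [local instance] CStarAlgebra.spectralOrder CStarAlgebra.spectralOrderedRing

private theorem exists_star_mul {u : A} (hu : 0 ≤ (inr u : Unitization ℂ A)) :
    ∃ s : A, u = star s * s := by
  obtain ⟨v, hv⟩ := CStarAlgebra.nonneg_iff_eq_star_mul_self.mp hu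
  have h0 : star v.fst * v.fst = 0 := by
    have := congrArg (fun x : Unitization ℂ A => x.fst) hv
    simpa using this.symm
  have hf : v.fst = 0 := (CStarRing.star_mul_self_eq_zero_iff v.fst).1 h0
  refine ⟨v.snd, inr_injective (R := ℂ) ?_⟩
  rw [inr_mul, inr_star, show (inr v.snd : Unitization ℂ A) = v from
    Unitization.ext (by simp [hf]) (by simp), ← hv]

private theorem toFun_null (τ : TraceWeight A) : τ.toFun 0 = 0 := by
  simpa using τ.smul 0 0

private theorem toFun_mono (τ : TraceWeight A) {u v : A} (hu : 0 ≤ (inr u : Unitization ℂ A))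
    (huv : (inr u : Unitization ℂ A) ≤ inr v) : τ.toFun u ≤ τ.toFun v := by
  have hd : 0 ≤ (inr (v - u) : Unitization ℂ A) := by rwa [inr_sub, sub_nonneg]
  obtain ⟨s, rfl⟩ := exists_star_mul hu
  obtain ⟨t, ht⟩ := exists_star_mul hd
  rw [show v = star s * s + star t * t by rw [← ht, add_sub_cancel], τ.add]
  exact le_self_add

private theorem toFun_rsmul (τ : TraceWeight A) {r : ℝ} (hr : 0 ≤ r) (s : A) :
    τ.toFun ((r : ℂ) • (star s * s)) = ENNReal.ofReal r * τ.toFun (star s * s) := by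
  lift r to ℝ≥0 using hr
  rw [τ.smul, ENNReal.ofReal_coe_nnreal]

private theorem toFun_left (τ : TraceWeight A) (a y : A) :
    τ.toFun (star (a * y) * (a * y)) ≤ ENNReal.ofReal (‖a‖ ^ 2) * τ.toFun (star y * y) := by
  rw [← toFun_rsmul τ (sq_nonneg ‖a‖)]
  refine toFun_mono τ ?_ ?_
  · rw [inr_mul, inr_star]
    exact star_mul_self_nonneg _
  · simp only [inr_smul, inr_mul, inr_star, star_mul, mul_assoc]
    rw [← mul_assoc (star (inr a : Unitization ℂ A)), ← mul_assoc]
    refine (star_left_conjugate_le_conjugate CStarAlgebra.star_mul_le_algebraMap_norm_sq _).trans_eq ?_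
    rw [norm_inr, Algebra.algebraMap_eq_smul_one, mul_smul_comm, mul_one, smul_mul_assoc,
      Complex.coe_smul]

private theorem toFun_right (τ : TraceWeight A) (a y : A) :
    τ.toFun (star (y * a) * (y * a)) ≤ ENNReal.ofReal (‖a‖ ^ 2) * τ.toFun (star y * y) := by
  have h := toFun_left τ (star a) (star y)
  rw [norm_star, ← star_mul, star_star, star_star] at h
  rwa [τ.tracial (y * a), τ.tracial y]

private theorem toFun_add_le (τ : TraceWeight A) (y z : A) :
    τ.toFun (star (y + z) * (y + z)) ≤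
      2 * (τ.toFun (star y * y) + τ.toFun (star z * z)) := by
  have e : (((2 : ℝ≥0) : ℝ) : ℂ) = 2 := by norm_num
  have h1 : ∀ w : A, τ.toFun (star w * w + star w * w) = 2 * τ.toFun (star w * w) := fun w => by
    rw [τ.add, two_mul]
  calc τ.toFun (star (y + z) * (y + z))
      ≤ τ.toFun (star (y + z) * (y + z)) + τ.toFun (star (y - z) * (y - z)) := le_self_add
    _ = τ.toFun (star y * y + star z * z) + τ.toFun (star y * y + star z * z) := by
        rw [← τ.add]
        obtain ⟨s, hs⟩ := exists_star_mul (u := star y * y + star z * z) (by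
          rw [inr_add, inr_mul, inr_mul, inr_star, inr_star]
          exact add_nonneg (star_mul_self_nonneg _) (star_mul_self_nonneg _))
        rw [hs, ← τ.add, ← hs]
        congr 1
        simp only [star_add, star_sub, add_mul, mul_add, sub_mul, mul_sub]
        abel
    _ = _ := by rw [τ.add, two_mul]

private theorem exists_sum_bound (x : A) {ι : Type*} (s : Finset ι) (a c : ι → A) :
    ∃ C : ℝ, 0 ≤ C ∧ ∀ τ : TraceWeight A,
      τ.toFun (star (∑ i ∈ s, a i * x * c i) * (∑ i ∈ s, a i * x * c i)) ≤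
        ENNReal.ofReal C * τ.toFun (star x * x) := by
  classical
  induction s using Finset.induction with
  | empty => exact ⟨0, le_rfl, fun τ => by simp [toFun_null τ]⟩
  | @insert i s hi ih =>
    obtain ⟨C, hC, hbd⟩ := ih
    refine ⟨2 * (‖c i‖ ^ 2 * ‖a i‖ ^ 2 + C), by positivity, fun τ => ?_⟩
    rw [Finset.sum_insert hi]
    refine (toFun_add_le τ _ _).trans ?_
    rw [ENNReal.ofReal_mul zero_le_two, ENNReal.ofReal_ofNat, ENNReal.ofReal_add (by positivity) hC,
      ENNReal.ofReal_mul (sq_nonneg ‖c i‖)]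
    refine (mul_le_mul' le_rfl (add_le_add ((toFun_right τ (c i) _).trans
      (mul_le_mul' le_rfl (toFun_left τ (a i) x))) (hbd τ))).trans_eq ?_
    ring

/-- In a simple algebra every element with a unit is bounded by every nonzero one. -/
private theorem exists_bound (hs : IsTopSimple A) {x : A} (hx : x ≠ 0) {u e : A}
    (hue : u * e = e) : ∃ C : ℝ, 0 < C ∧ ∀ τ : TraceWeight A,
      τ.toFun (star e * e) ≤ ENNReal.ofReal C * τ.toFun (star x * x) := by
  obtain ⟨n, a, c, hac, hn⟩ := (isSimpleIdeal_inrSet hs).simple _ ⟨x, rfl⟩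
    (fun h => hx (inr_injective (R := ℂ) (by rw [h, inr_zero]))) _ ⟨u, rfl⟩ (1 / 2) (by norm_num)
  choose a' ha' using fun i => (hac i).1
  choose c' hc' using fun i => (hac i).2
  obtain ⟨C, hC, hbd⟩ := exists_sum_bound x Finset.univ a' c'
  set X : A := ∑ i, a' i * x * c' i
  have hX : ‖X - u‖ ≤ 1 / 2 := by
    rw [← norm_inr (𝕜 := ℂ), inr_sub]
    refine le_of_eq_of_le ?_ hn
    congr 2
    simp only [X]
    refine (map_sum (Unitization.inrNonUnitalAlgHom ℂ A) _ _).trans (Finset.sum_congr rfl ?_)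
    intro i _
    show ((a' i * x * c' i : A) : Unitization ℂ A) = _
    rw [inr_mul, inr_mul, ha', hc']
  refine ⟨4 * (‖e‖ ^ 2 * C) + 1, by positivity, fun τ => ?_⟩
  have hk : (inr u : Unitization ℂ A) * inr e = inr e := by rw [← inr_mul, hue]
  have h1 : τ.toFun (((1 / 4 : ℝ) : ℂ) • (star e * e)) ≤ τ.toFun (star (X * e) * (X * e)) := by
    refine toFun_mono τ ?_ ?_
    · rw [inr_smul, inr_mul, inr_star, Complex.coe_smul]
      exact smul_nonneg (by norm_num) (star_mul_self_nonneg _)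
    set k : Unitization ℂ A := inr e
    set y : Unitization ℂ A := inr X * k
    have hd : star (y - k) * (y - k) ≤ (1 / 4 : ℝ) • (star k * k) := by
      have e1 : y - k = inr (X - u) * k := by rw [inr_sub, sub_mul, hk]
      rw [e1, star_mul, mul_assoc, ← mul_assoc (star (inr (X - u) : Unitization ℂ A)), ← mul_assoc]
      refine (star_left_conjugate_le_conjugate CStarAlgebra.star_mul_le_algebraMap_norm_sq _).trans ?_
      rw [norm_inr, Algebra.algebraMap_eq_smul_one, mul_smul_comm, mul_one, smul_mul_assoc]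
      refine smul_le_smul_of_nonneg_right ?_ (star_mul_self_nonneg _)
      nlinarith [norm_nonneg (X - u)]
    have h0 : 0 ≤ (1 / 2 : ℝ) • (star ((2 : ℝ) • y - k) * ((2 : ℝ) • y - k)) :=
      smul_nonneg (by norm_num) (star_mul_self_nonneg _)
    have e2 : (1 / 2 : ℝ) • (star ((2 : ℝ) • y - k) * ((2 : ℝ) • y - k)) =
        star y * y + star (y - k) * (y - k) - (1 / 2 : ℝ) • (star k * k) := by
      simp only [star_sub, star_smul, star_trivial, sub_mul, mul_sub, smul_mul_assoc,
        mul_smul_comm]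
      module
    rw [e2, sub_nonneg] at h0
    have h2 : (1 / 2 : ℝ) • (star k * k) ≤ star y * y + (1 / 4 : ℝ) • (star k * k) :=
      h0.trans (add_le_add le_rfl hd)
    rw [show (1 / 2 : ℝ) • (star k * k) = (1 / 4 : ℝ) • (star k * k) + (1 / 4 : ℝ) • (star k * k) by
      rw [← add_smul]; norm_num] at h2
    rw [inr_smul, inr_mul, inr_star, Complex.coe_smul, inr_mul, inr_star, inr_mul]
    exact le_of_add_le_add_right h2
  rw [toFun_rsmul τ (by norm_num)] at h1
  calc τ.toFun (star e * e)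
      = ENNReal.ofReal 4 * (ENNReal.ofReal (1 / 4) * τ.toFun (star e * e)) := by
        rw [← mul_assoc, ← ENNReal.ofReal_mul (by norm_num)]; norm_num
    _ ≤ ENNReal.ofReal 4 * (ENNReal.ofReal (‖e‖ ^ 2) *
          (ENNReal.ofReal C * τ.toFun (star x * x))) := by
        refine mul_le_mul' le_rfl ?_
        exact h1.trans ((toFun_right τ e X).trans (mul_le_mul' le_rfl (hbd τ)))
    _ ≤ _ := by
        rw [← mul_assoc, ← mul_assoc, ← ENNReal.ofReal_mul (by norm_num),
          ← ENNReal.ofReal_mul (by positivity)]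
        gcongr
        linarith

/-- A multiple of a weight. -/
private noncomputable def scaleW (τ : TraceWeight A) (r : ℝ≥0) : TraceWeight A where
  toFun x := r * τ.toFun x
  add x y := by rw [τ.add, mul_add]
  smul s x := by rw [τ.smul, mul_left_comm]
  tracial x := by rw [τ.tracial]

private theorem dimFn_scaleW (τ : TraceWeight A) (r : ℝ≥0) (a : A) :
    dimFn (scaleW τ r) a = r * dimFn τ a := (ENNReal.mul_iSup _ _).symm

/-- On positive elements `b q b` of `A` the functional is the weight. -/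
private theorem toFun_eq_val {p : UnitPair A} {τ : TraceWeight A} (hτ : p.Normed τ)
    {q : Unitization ℂ A} (hq : 0 ≤ q) {u : A} (hu : (inr u : Unitization ℂ A) = p.bi * q * p.bi) :
    τ.toFun u = ENNReal.ofReal (p.val τ hτ q) := by
  have h0 : 0 ≤ p.bi * q * p.bi := p.bi_sa.conjugate_nonneg hq
  have he : inr p.e * (p.bi * q * p.bi) * inr p.e = p.bi * q * p.bi := by
    have a1 : inr p.e * p.bi = p.bi := by rw [UnitPair.bi, ← mul_assoc, p.e_ci]
    have a2 : p.bi * inr p.e = p.bi := by rw [UnitPair.bi, mul_assoc, p.ci_e]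
    rw [← mul_assoc, ← mul_assoc, a1, mul_assoc (p.bi * q), a2]
  have hne := toFun_ne_top p.e_sa hτ h0
  rw [he, ← hu, snd_inr] at hne
  rw [UnitPair.val, cutFun_apply, cutVal_of_nonneg p.e_sa hτ h0, cutPos, he, ← hu, snd_inr]
  exact (ENNReal.ofReal_toReal hne).symm

private theorem inr_snd_of_mem {x : Unitization ℂ A} (h : x ∈ inrSet A) :
    (inr x.snd : Unitization ℂ A) = x := by
  obtain ⟨a, rfl⟩ := h
  rw [snd_inr]

/-- A plateau below a pair of the ideal, with a unit. -/
private theorem exists_unitPair {g h : Unitization ℂ A} (hg : g ∈ inrSet A) (hgh : IsPair g h) :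
    ∃ (p : UnitPair A) (u : A), p.bi = h ∧ u * p.e = p.e ∧ p.e ≠ 0 ∧ ‖p.e‖ ≤ 1 := by
  have hg0 : 0 ≤ g := by obtain ⟨y, rfl⟩ := hgh.pos_b; exact star_mul_self_nonneg y
  have hh0 : 0 ≤ h := by obtain ⟨y, rfl⟩ := hgh.pos_c; exact star_mul_self_nonneg y
  have hgs : IsSelfAdjoint g := hg0.isSelfAdjoint
  have hhs : IsSelfAdjoint h := hh0.isSelfAdjoint
  obtain ⟨g', rfl⟩ := hg
  obtain ⟨h', rfl⟩ : h ∈ inrSet A := by
    rw [← hgh.unit]
    exact ⟨(inr g' * h).snd, Unitization.ext (by simp) (by simp)⟩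
  let f : ℝ → ℝ := fun r => max (2 * r - 1) 0
  let f₁ : ℝ → ℝ := fun r => min 1 (2 * r)
  let φ : ℝ → ℝ := fun r => (1 - min r (1 / 2))⁻¹
  have hφpos : ∀ r : ℝ, 0 < 1 - min r (1 / 2) := fun r => by linarith [min_le_right r (1 / 2)]
  have hf : Continuous f := by fun_prop
  have hf₁ : Continuous f₁ := by fun_prop
  have hφ : Continuous φ := Continuous.inv₀ (by fun_prop) fun r => (hφpos r).ne'
  have he : (inr (cfcₙ f g') : Unitization ℂ A) = cfc f (inr g') :=
    Unitization.real_cfcₙ_eq_cfc_inr g' f (by simp [f])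
  have hu : (inr (cfcₙ f₁ g') : Unitization ℂ A) = cfc f₁ (inr g') :=
    Unitization.real_cfcₙ_eq_cfc_inr g' f₁ (by simp [f₁])
  have hs : (inr (cfcₙ Real.sqrt h') : Unitization ℂ A) = cfc Real.sqrt (inr h') :=
    Unitization.real_cfcₙ_eq_cfc_inr h' Real.sqrt Real.sqrt_zero
  have hss : cfcₙ Real.sqrt h' * cfcₙ Real.sqrt h' = h' := by
    refine inr_injective (R := ℂ) ?_
    rw [inr_mul, hs, ← cfc_mul Real.sqrt Real.sqrt (inr h' : Unitization ℂ A)]
    conv_rhs => rw [← cfc_id' ℝ (inr h' : Unitization ℂ A) hhs]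
    exact cfc_congr fun r hr => Real.mul_self_sqrt (spectrum_nonneg_of_nonneg hh0 hr)
  set s : Unitization ℂ A := cfc Real.sqrt (inr h')
  have hsa : star s = s := (cfc_predicate _ _ : IsSelfAdjoint s).star_eq
  have key : (cfc f (inr g') - 1) * (inr h' : Unitization ℂ A) = 0 := by
    have e1 : cfc f (inr g' : Unitization ℂ A) - 1 = cfc φ (inr g') * ((inr g') - 1) := by
      conv_rhs => arg 2; rw [← cfc_id' ℝ (inr g' : Unitization ℂ A) hgs]
      rw [← cfc_const_one ℝ (inr g' : Unitization ℂ A) hgs,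
        ← cfc_sub f (fun _ => (1 : ℝ)) _ hf.continuousOn continuousOn_const,
        ← cfc_sub (fun r : ℝ => r) (fun _ => (1 : ℝ)) _ continuousOn_id continuousOn_const,
        ← cfc_mul φ (fun r => r - 1) _ hφ.continuousOn (by fun_prop)]
      refine cfc_congr fun r _ => ?_
      show f r - 1 = (1 - min r (1 / 2))⁻¹ * (r - 1)
      rw [eq_inv_mul_iff_mul_eq₀ (hφpos r).ne']
      simp only [f]
      rcases le_total r (1 / 2) with h | h
      · rw [min_eq_left h, max_eq_right (by linarith)]; ring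
      · rw [min_eq_right h, max_eq_left (by linarith)]; ring
    rw [e1, mul_assoc, sub_mul, one_mul, hgh.unit, sub_self, mul_zero]
  have hes : cfc f (inr g') * s = s := by
    rw [← sub_eq_zero, ← CStarRing.mul_star_self_eq_zero_iff, ← sub_one_mul, star_mul, hsa,
      mul_assoc, ← mul_assoc s, show s * s = inr h' by rw [← hs, ← inr_mul, hss], ← mul_assoc, key,
      zero_mul]
  let p : UnitPair A :=
    { e := cfcₙ f g'
      c := cfcₙ Real.sqrt h'
      e_sa := cfcₙ_predicate f g'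
      c_sa := cfcₙ_predicate Real.sqrt h'
      fix := inr_injective (R := ℂ) (by rw [inr_mul, he, hs, hes]) }
  have hbi : p.bi = inr h' := by rw [p.bi_eq]; exact congrArg inr hss
  refine ⟨p, cfcₙ f₁ g', hbi, inr_injective (R := ℂ) ?_, fun h0 => ?_, ?_⟩
  · rw [inr_mul, hu, show (inr p.e : Unitization ℂ A) = cfc f (inr g') from he,
      ← cfc_mul f₁ f _ hf₁.continuousOn hf.continuousOn]
    refine cfc_congr fun r _ => ?_
    simp only [f, f₁]
    rcases le_total r (1 / 2) with h | h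
    · rw [max_eq_right (by linarith), mul_zero]
    · rw [min_eq_left (by linarith), one_mul]
  · have hc : p.c = 0 := by rw [← p.fix, h0, zero_mul]
    have := hgh.norm_c
    rw [← hbi, p.bi_eq, hc, mul_zero, inr_zero, norm_zero] at this
    exact zero_ne_one this
  · rw [← norm_inr (𝕜 := ℂ) p.e, show (inr p.e : Unitization ℂ A) = cfc f (inr g') from he]
    refine norm_cfc_le zero_le_one fun r hr => ?_
    have h1 := (spectrum.norm_le_norm_of_mem hr).trans_eq hgh.norm_b
    rw [Real.norm_eq_abs, abs_le] at h1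
    rw [Real.norm_eq_abs, abs_le]
    exact ⟨le_trans (by norm_num) (le_max_right _ _), max_le (by linarith) zero_le_one⟩

/-- `τ (min (1, n (x - ε)+))` is at most `τ x / ε`. -/
private theorem dimFn_upper (τ : TraceWeight A) {x : A} (hx : 0 ≤ (inr x : Unitization ℂ A))
    {ε : ℝ} (hε : 0 < ε) :
    dimFn τ (cfcₙ (fun r : ℝ => max (r - ε) 0) x) ≤ ENNReal.ofReal ε⁻¹ * τ.toFun x := by
  refine iSup_le fun m => ?_
  let fm : ℝ → ℝ := fun r => max 0 (min 1 ((m + 1) * r))
  let k : ℝ → ℝ := fun r => max (r - ε) 0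
  have hk : Continuous k := by fun_prop
  have hfm : Continuous fm := by fun_prop
  have hk0 : k 0 = 0 := max_eq_right (by linarith)
  have hinr : (inr (cfcₙ fm (cfcₙ k x)) : Unitization ℂ A) = cfc (fun r => fm (k r)) (inr x) := by
    rw [Unitization.real_cfcₙ_eq_cfc_inr _ fm (by simp [fm]),
      Unitization.real_cfcₙ_eq_cfc_inr x k hk0, ← cfc_comp' fm k _ hfm.continuousOn hk.continuousOn]
  obtain ⟨s, rfl⟩ := exists_star_mul hx
  rw [← toFun_rsmul τ (by positivity)]
  refine toFun_mono τ ?_ ?_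
  · rw [hinr]
    exact cfc_nonneg fun r _ => le_max_left _ _
  · rw [hinr, inr_smul, Complex.coe_smul, ← cfc_const_mul_id ε⁻¹ (inr (star s * s) : Unitization ℂ A)]
    refine cfc_mono (fun r hr => ?_) (hfm.comp hk).continuousOn (by fun_prop)
    have hr0 : 0 ≤ r := spectrum_nonneg_of_nonneg hx hr
    simp only [fm, k]
    rcases le_total r ε with h | h
    · rw [max_eq_right (sub_nonpos.2 h)]
      simp only [mul_zero, min_eq_right zero_le_one, max_self]
      positivity
    · refine max_le (by positivity) ((min_le_left _ _).trans ?_)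
      rwa [inv_mul_eq_div, one_le_div hε]

/-- `L x - δ` is a lower bound for `d (x - δ)+`. -/
private theorem dimFn_lower {τ : TraceWeight A} {e : A} (he : IsSelfAdjoint e)
    (hτ : τ.toFun (e * e) ≤ 1) (he1 : ‖e‖ ≤ 1) {y : A} (hy : 0 ≤ (inr y : Unitization ℂ A))
    (hy1 : ‖(inr y : Unitization ℂ A)‖ ≤ 1) {δ : ℝ} (hδ : 0 ≤ δ) :
    ENNReal.ofReal (cutFun he hτ (inr y) - δ) ≤ dimFn τ (cfcₙ (fun r : ℝ => max (r - δ) 0) y) := by
  let k : ℝ → ℝ := fun r => max (r - δ) 0
  have hk : Continuous k := by fun_prop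
  have hk0 : k 0 = 0 := max_eq_right (by linarith)
  have hY : (inr (cfcₙ k y) : Unitization ℂ A) = cfc k (inr y) :=
    Unitization.real_cfcₙ_eq_cfc_inr y k hk0
  have hYnn : 0 ≤ (inr (cfcₙ k y) : Unitization ℂ A) := hY ▸ cfc_nonneg fun r _ => le_max_right _ _
  -- the functional
  have hmono : ∀ P Q : Unitization ℂ A, P ≤ Q → cutFun he hτ P ≤ cutFun he hτ Q := fun P Q h => by
    obtain ⟨v, hv⟩ := exists_sq (sub_nonneg.2 h)
    have := cutFun_nonneg he hτ v
    rw [← hv, map_sub] at this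
    linarith
  have hsplit : cutFun he hτ (inr y) - δ ≤ cutFun he hτ (inr (cfcₙ k y)) := by
    have h1 : (inr y : Unitization ℂ A) ≤ inr (cfcₙ k y) + δ • 1 := by
      conv_lhs => rw [← cfc_id' ℝ (inr y : Unitization ℂ A) hy.isSelfAdjoint]
      rw [hY, ← cfc_const_one ℝ (inr y : Unitization ℂ A) hy.isSelfAdjoint,
        ← cfc_smul δ (fun _ : ℝ => (1 : ℝ)) _ continuousOn_const,
        ← cfc_add _ k _ hk.continuousOn (by fun_prop)]
      refine cfc_mono (fun r _ => ?_) (by fun_prop) (by fun_prop)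
      simp only [k, smul_eq_mul, mul_one]
      linarith [le_max_left (r - δ) 0]
    have h2 := hmono _ _ h1
    rw [map_add, map_smul, smul_eq_mul] at h2
    have h3 : cutFun he hτ (1 : Unitization ℂ A) ≤ 1 :=
      ((le_abs_self _).trans (abs_cutFun_le he hτ 1)).trans CStarRing.norm_one.le
    nlinarith
  refine (ENNReal.ofReal_le_ofReal hsplit).trans (le_trans ?_ (le_iSup _ 0))
  have hfix : cfcₙ (fun r : ℝ => max 0 (min 1 (((0 : ℕ) + 1) * r))) (cfcₙ k y) = cfcₙ k y := by
    refine inr_injective (R := ℂ) ?_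
    rw [Unitization.real_cfcₙ_eq_cfc_inr _ _ (by simp), hY,
      ← cfc_comp' _ k _ (by fun_prop) hk.continuousOn]
    refine cfc_congr fun r hr => ?_
    have hr1 : r ≤ 1 := (Real.le_norm_self r).trans ((spectrum.norm_le_norm_of_mem hr).trans hy1)
    simp only [k, Nat.cast_zero, zero_add, one_mul]
    rw [min_eq_right (max_le (by linarith) zero_le_one), max_eq_right (le_max_right _ _)]
  show _ ≤ τ.toFun _
  rw [hfix, cutFun_apply, cutVal_of_nonneg he hτ hYnn, cutPos]
  refine ENNReal.ofReal_toReal_le.trans ?_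
  obtain ⟨t, ht⟩ := exists_star_mul hYnn
  rw [ht, ← inr_mul, ← inr_mul, snd_inr,
    show e * (star t * t) * e = star (t * e) * (t * e) by
      rw [star_mul, he.star_eq]; simp only [mul_assoc]]
  refine (toFun_right τ e t).trans ((mul_le_mul' ?_ le_rfl).trans_eq (one_mul _))
  exact ENNReal.ofReal_le_one.2 (pow_le_one₀ (norm_nonneg _) he1)

theorem comparesOn_weights [Nontrivial A] (hs : IsTopSimple A) (hcmp : HasComparison A)
    (hτ : HasTrace A) : ComparesOn (inrSet A) SmallW LargeW := by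
  classical
  intro g h b c hg hgh hb hbc κ ε hκ hε
  obtain ⟨p₁, u₁, hb1, hu1, -, -⟩ := exists_unitPair hg hgh
  obtain ⟨p₂, u₂, hb2, hu2, hne2, he2⟩ := exists_unitPair hb hbc
  set cc : A := p₂.c * p₂.c with hcc
  have hccn : ‖cc‖ = 1 := by rw [← norm_inr (𝕜 := ℂ), hcc, ← p₂.bi_eq, hb2, hbc.norm_c]
  have hccne : cc ≠ 0 := fun h0 => by rw [h0, norm_zero] at hccn; exact zero_ne_one hccn
  obtain ⟨C₁, hC1, hbd1⟩ := exists_bound hs hccne hu1
  obtain ⟨C₂, hC2, hbd2⟩ := exists_bound hs hccne hu2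
  set M : ℝ := max C₁ 1
  have hM : 0 < M := lt_max_of_lt_right one_pos
  set δ : ℝ := κ / (4 * C₂) with hδ
  have hδ0 : 0 < δ := by positivity
  set η : ℝ := min (δ / 2) (δ * ε / (2 * M)) with hη
  have hη0 : 0 < η := lt_min (by positivity) (by positivity)
  refine ⟨{inr p₁.e, inr p₁.c, inr p₂.e, inr p₂.c}, δ, η, ?_, hδ0, hη0,
    fun e q he hen hq hqn _ hsmall hlarge => ?_⟩
  · intro d hd
    simp only [Finset.mem_insert, Finset.mem_singleton] at hd
    rcases hd with rfl | rfl | rfl | rfl <;> exact ⟨_, rfl⟩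
  have he0 : 0 ≤ e := by obtain ⟨y, rfl⟩ := he; exact star_mul_self_nonneg y
  have hq0 : 0 ≤ q := by obtain ⟨y, rfl⟩ := hq; exact star_mul_self_nonneg y
  rw [← hb1, ← hb2]
  set x : A := (p₁.bi * e * p₁.bi).snd
  set y : A := (p₂.bi * q * p₂.bi).snd
  have hx : (inr x : Unitization ℂ A) = p₁.bi * e * p₁.bi :=
    Unitization.ext (by simp [UnitPair.bi, UnitPair.ci]) (by simp [x])
  have hy : (inr y : Unitization ℂ A) = p₂.bi * q * p₂.bi :=
    Unitization.ext (by simp [UnitPair.bi, UnitPair.ci]) (by simp [y])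
  have hx0 : 0 ≤ (inr x : Unitization ℂ A) := hx ▸ p₁.bi_sa.conjugate_nonneg he0
  have hy0 : 0 ≤ (inr y : Unitization ℂ A) := hy ▸ p₂.bi_sa.conjugate_nonneg hq0
  have hy1 : ‖(inr y : Unitization ℂ A)‖ ≤ 1 := by
    rw [hy]
    refine (norm_mul_le _ _).trans ((mul_le_mul (norm_mul_le _ _) le_rfl (norm_nonneg _)
      (mul_nonneg (norm_nonneg _) (norm_nonneg _))).trans ?_)
    rw [hb2, hbc.norm_c, one_mul, mul_one]
    exact hqn
  set a : A := cfcₙ (fun r : ℝ => max (r - ε) 0) x
  set b' : A := cfcₙ (fun r : ℝ => max (r - δ) 0) y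
  have ha : (inr a : Unitization ℂ A) = cfc (fun r : ℝ => max (r - ε) 0) (inr x) :=
    Unitization.real_cfcₙ_eq_cfc_inr x _ (max_eq_right (by linarith))
  have hb' : (inr b' : Unitization ℂ A) = cfc (fun r : ℝ => max (r - δ) 0) (inr y) :=
    Unitization.real_cfcₙ_eq_cfc_inr y _ (max_eq_right (by linarith))
  have hlt : ∀ τ : TraceWeight A, IsDensTrace τ → dimFn τ a < dimFn τ b' := by
    intro τ hd
    set s : ℝ≥0∞ := τ.toFun (star p₂.e * p₂.e)
    have hs0 : 0 < s := hd.pos hs hne2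
    have hstop : s ≠ ⊤ := hd.finite hu2
    set τ₁ : TraceWeight A := scaleW τ s.toNNReal⁻¹
    have hsnn : s.toNNReal ≠ 0 := (ENNReal.toNNReal_pos hs0.ne' hstop).ne'
    have hone : τ₁.toFun (star p₂.e * p₂.e) = 1 := by
      show (s.toNNReal⁻¹ : ℝ≥0) * s = 1
      conv_lhs => arg 2; rw [← ENNReal.coe_toNNReal hstop]
      rw [← ENNReal.coe_mul, inv_mul_cancel₀ hsnn, ENNReal.coe_one]
    have hn1 : p₂.Normed τ₁ := by
      show τ₁.toFun (p₂.e * p₂.e) ≤ 1
      conv_lhs => arg 2; arg 1; rw [← p₂.e_sa.star_eq]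
      exact hone.le
    have hcc1 : τ₁.toFun (star cc * cc) ≤ 1 := by
      have h := toFun_right τ₁ cc p₂.e
      rw [show p₂.e * cc = cc by rw [hcc, ← mul_assoc, p₂.fix], hone, hccn] at h
      simpa using h
    set τ₂ : TraceWeight A := scaleW τ₁ M⁻¹.toNNReal
    have hn2 : p₁.Normed τ₂ := by
      have h : τ₁.toFun (p₁.e * p₁.e) ≤ ENNReal.ofReal M := by
        conv_lhs => arg 2; arg 1; rw [← p₁.e_sa.star_eq]
        refine (hbd1 τ₁).trans (le_trans (mul_le_mul' le_rfl hcc1) ?_)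
        rw [mul_one]
        exact ENNReal.ofReal_le_ofReal (le_max_left _ _)
      show ENNReal.ofReal M⁻¹ * _ ≤ 1
      refine (mul_le_mul' le_rfl h).trans_eq ?_
      rw [← ENNReal.ofReal_mul (by positivity), inv_mul_cancel₀ hM.ne', ENNReal.ofReal_one]
    -- the upper bound
    have hx2 : τ₁.toFun x ≤ ENNReal.ofReal (M * (2 * η)) := by
      have h := hsmall p₁ (by simp) (by simp) τ₂ hn2
      rw [hb1, hgh.norm_c, one_mul, show (1 : ℝ) + 1 = 2 by norm_num, mul_comm η] at h
      have h2 : τ₂.toFun x ≤ ENNReal.ofReal (2 * η) :=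
        (toFun_eq_val hn2 he0 hx).trans_le (ENNReal.ofReal_le_ofReal h)
      calc τ₁.toFun x = ENNReal.ofReal M * τ₂.toFun x := by
            show _ = _ * (ENNReal.ofReal M⁻¹ * _)
            rw [← mul_assoc, ← ENNReal.ofReal_mul hM.le, mul_inv_cancel₀ hM.ne', ENNReal.ofReal_one, one_mul]
        _ ≤ ENNReal.ofReal M * ENNReal.ofReal (2 * η) := mul_le_mul' le_rfl h2
        _ = _ := (ENNReal.ofReal_mul hM.le).symm
    have hup : dimFn τ₁ a ≤ ENNReal.ofReal δ := by
      refine (dimFn_upper τ₁ hx0 hε).trans ((mul_le_mul' le_rfl hx2).trans ?_)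
      rw [← ENNReal.ofReal_mul (by positivity)]
      refine ENNReal.ofReal_le_ofReal ?_
      have h : η ≤ δ * ε / (2 * M) := min_le_right _ _
      rw [le_div_iff₀ (by positivity)] at h
      rw [inv_mul_le_iff₀ hε]
      linarith
    -- the lower bound
    have hv : 1 ≤ C₂ * p₂.val τ₁ hn1 1 := by
      have h1 : τ₁.toFun (star cc * cc) = ENNReal.ofReal (p₂.val τ₁ hn1 1) := by
        refine toFun_eq_val hn1 zero_le_one ?_
        rw [mul_one, p₂.bi_eq, ← inr_mul, ← hcc]
        congr 2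
        rw [hcc, star_mul, p₂.c_sa.star_eq]
      have h2 := hbd2 τ₁
      rw [hone, h1, ← ENNReal.ofReal_mul hC2.le] at h2
      exact ENNReal.one_le_ofReal.1 h2
    have hL : cutFun p₂.e_sa hn1 (inr y) = p₂.val τ₁ hn1 q := by rw [hy]; rfl
    have hlg := hlarge p₂ (by simp) (by simp) τ₁ hn1
    rw [hb2, hbc.norm_c, one_mul, show (1 : ℝ) + 1 = 2 by norm_num] at hlg
    have hlow := dimFn_lower p₂.e_sa hn1 he2 hy0 hy1 hδ0.le
    rw [hL] at hlow
    have hκv : 4 * δ ≤ κ * p₂.val τ₁ hn1 1 := by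
      have h4 : κ = 4 * δ * C₂ := by rw [hδ]; field_simp
      calc 4 * δ ≤ 4 * δ * (C₂ * p₂.val τ₁ hn1 1) :=
            le_mul_of_one_le_right (by positivity) hv
        _ = _ := by rw [h4]; ring
    have h12 : dimFn τ₁ a < dimFn τ₁ b' := by
      refine hup.trans_lt (lt_of_lt_of_le ?_ hlow)
      have hη2 : η ≤ δ / 2 := min_le_left _ _
      exact (ENNReal.ofReal_lt_ofReal_iff (by linarith)).2 (by linarith)
    rw [dimFn_scaleW, dimFn_scaleW] at h12
    exact lt_of_not_ge fun h => (lt_irrefl _) (h12.trans_le (mul_le_mul' le_rfl h))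
  have hb'ne : b' ≠ 0 := fun h0 => by
    obtain ⟨τ, hd⟩ := hτ
    have := hlt τ hd
    rw [h0, show dimFn τ (0 : A) = 0 by simp [dimFn, cfcₙ_apply_zero, toFun_null τ]] at this
    exact not_lt_zero' this
  have hapos : 0 ≤ (inr a : Unitization ℂ A) := ha ▸ cfc_nonneg fun r _ => le_max_right _ _
  have hbpos : 0 ≤ (inr b' : Unitization ℂ A) := hb' ▸ cfc_nonneg fun r _ => le_max_right _ _
  intro ε' hε'
  obtain ⟨w, hw⟩ := hcmp a b' (exists_star_mul hapos) (exists_star_mul hbpos) hb'ne hlt ε' hε'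
  refine ⟨inr w, ?_⟩
  rw [← hx, ← hy, ← ha, ← hb', ← inr_star, ← inr_mul, ← inr_mul, ← inr_sub, norm_inr]
  exact hw

end Weights

end Vale.P095.SI.NU
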