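import Vale.Agent.P095.Nonunital.WeightFun

/-!
# P095 (SI): the classical hypotheses for a not necessarily unital algebra

Topological simplicity, nuclearity (completely positive approximation), densely defined lower
semicontinuous traces and strict comparison by them.
-/

open scoped ENNReal

namespace Vale.P095.SI.NU

open Vale.P095.Nonunital

section CP

variable {B C : Type*} [NonUnitalCStarAlgebra B] [NonUnitalCStarAlgebra C]

/-- Complete positivity: amplifications map positive matrices to positive matrices. -/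
def IsCP (f : B →ₗ[ℂ] C) : Prop :=
  ∀ (k : ℕ) (Y : CStarMatrix (Fin k) (Fin k) B),
    ∃ Z : CStarMatrix (Fin k) (Fin k) C, (star Y * Y).map f = star Z * Z

end CP

variable (A : Type*) [NonUnitalCStarAlgebra A]

/-- No closed two-sided ideals other than zero and `A`. -/
def IsTopSimple : Prop :=
  ∀ J : TwoSidedIdeal A, IsClosed (J : Set A) → J = ⊥ ∨ J = ⊤

section
attribute [local instance] CStarAlgebra.spectralOrder CStarAlgebra.spectralOrderedRing

/-- The completely positive approximation property (nuclearity); contractivity is not required. -/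
def HasCPAP : Prop :=
  ∀ (D : Finset A) (ε : ℝ), 0 < ε → ∃ (N : ℕ) (ρ : A →ₗ[ℂ] CStarMatrix (Fin N) (Fin N) ℂ)
    (ψ : CStarMatrix (Fin N) (Fin N) ℂ →ₗ[ℂ] A), IsCP ρ ∧ IsCP ψ ∧ ∀ a ∈ D, ‖ψ (ρ a) - a‖ ≤ ε

end

variable {A}

/-- A nonzero, lower semicontinuous, densely defined trace. -/
structure IsDensTrace (τ : TraceWeight A) : Prop where
  lsc : LowerSemicontinuous fun x : A => τ.toFun (star x * x)
  ne_zero : ∃ x : A, τ.toFun (star x * x) ≠ 0
  dense : Dense {x : A | τ.toFun (star x * x) < ⊤}

/-- The dimension function `d_τ (a) = lim τ (min (1, n a))`. -/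
noncomputable def dimFn (τ : TraceWeight A) (a : A) : ℝ≥0∞ :=
  ⨆ m : ℕ, τ.toFun (cfcₙ (fun r : ℝ => max 0 (min 1 ((m + 1) * r))) a)

variable (A)

/-- Strict comparison of positive elements by densely defined lower semicontinuous traces. -/
def HasComparison : Prop :=
  ∀ a b : A, (∃ y, a = star y * y) → (∃ y, b = star y * y) → b ≠ 0 →
    (∀ τ : TraceWeight A, IsDensTrace τ → dimFn τ a < dimFn τ b) →
    ∀ ε : ℝ, 0 < ε → ∃ w : A, ‖star w * b * w - a‖ ≤ ε

/-- The algebra has a nonzero densely defined lower semicontinuous trace. -/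
def HasTrace : Prop := ∃ τ : TraceWeight A, IsDensTrace τ

end Vale.P095.SI.NU
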