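import Vale.Agent.P095.SI.Relative
import Vale.Agent.P095.SI.NU.Defs
import Vale.Agent.P095.Nonunital.FA

/-!
# P095 (SI): the ideal `A` of its unitization, and facts about densely defined traces

`simple`: the closure of the finite sums `∑ a i * x * c i` is a closed ideal, nonzero as it
contains `star x * x * star x`. Nuclearity transfers through `snd` and `inr`. The kernel of a lower
semicontinuous trace is a closed ideal, hence zero; if `e * c = c` pick `x` with finite trace and
`‖star x * x - star e * e‖ < 1`, then `τ (c* c)` is at most a multiple of `τ (c* x* x c)`, which is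
at most `‖c‖ ^ 2 * τ (x* x)`.
-/

open scoped NNReal ENNReal
open Unitization

namespace Vale.P095.SI.NU

open Vale.P095.Nonunital Vale.P095.SI

variable {A : Type*} [NonUnitalCStarAlgebra A]

private theorem mem_inrSet {x : Unitization ℂ A} : x ∈ inrSet A ↔ x.fst = 0 :=
  ⟨fun ⟨a, ha⟩ => by rw [← ha]; simp, fun h => ⟨x.snd, Unitization.ext (by simp [h]) (by simp)⟩⟩

private theorem inr_snd {x : Unitization ℂ A} (h : x.fst = 0) :
    (inr x.snd : Unitization ℂ A) = x := Unitization.ext (by simp [h]) (by simp)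

/-- Finite sums `∑ u i * a * v i`. -/
private def sandwichSums (a : A) : AddSubgroup A where
  carrier := {z | ∃ (n : ℕ) (u v : Fin n → A), ∑ i, u i * a * v i = z}
  zero_mem' := ⟨0, ![], ![], by simp⟩
  add_mem' := by
    rintro _ _ ⟨n, u, v, rfl⟩ ⟨m, u', v', rfl⟩
    exact ⟨n + m, Fin.append u u', Fin.append v v', by simp [Fin.sum_univ_add]⟩
  neg_mem' := by
    rintro _ ⟨n, u, v, rfl⟩
    exact ⟨n, -u, v, by simp [Finset.sum_neg_distrib]⟩

private theorem sandwichSums_mul (a b : A) {z : A} (h : z ∈ sandwichSums a) :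
    b * z ∈ sandwichSums a ∧ z * b ∈ sandwichSums a := by
  obtain ⟨n, u, v, rfl⟩ := h
  exact ⟨⟨n, fun i => b * u i, v, by simp [Finset.mul_sum, mul_assoc]⟩,
    ⟨n, u, fun i => v i * b, by simp [Finset.sum_mul, mul_assoc]⟩⟩

theorem isSimpleIdeal_inrSet (h : IsTopSimple A) : IsSimpleIdeal (inrSet A) := by
  refine ⟨mem_inrSet.2 (by simp), ?_, ?_, ?_, ?_, ?_, ?_, ?_⟩
  · intro x hx y hy
    rw [mem_inrSet] at *
    simp [hx, hy]
  · intro c x hx
    rw [mem_inrSet] at *
    simp [hx]
  · intro b x hx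
    rw [mem_inrSet] at *
    simp [hx]
  · intro b x hx
    rw [mem_inrSet] at *
    simp [hx]
  · intro x hx
    rw [mem_inrSet] at *
    simp [hx]
  · rw [show inrSet A = {x : Unitization ℂ A | x.fst = 0} from Set.ext fun x => mem_inrSet]
    exact isClosed_eq (continuous_fst.comp
      (Unitization.uniformEquivProd (𝕜 := ℂ) (A := A)).toHomeomorph.continuous) continuous_const
  rintro _ ⟨a, rfl⟩ hne _ ⟨b, rfl⟩ ε hε
  have ha : a ≠ 0 := fun h0 => hne (by simp [h0])
  let S := (sandwichSums a).topologicalClosure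
  have hmul : ∀ b z : A, z ∈ S → b * z ∈ S ∧ z * b ∈ S := fun b z hz =>
    ⟨map_mem_closure (continuous_const_mul b) hz fun w hw => (sandwichSums_mul a b hw).1,
      map_mem_closure (f := fun w => w * b) (continuous_mul_const b) hz fun w hw => (sandwichSums_mul a b hw).2⟩
  let J : TwoSidedIdeal A := TwoSidedIdeal.mk' (S : Set A) S.zero_mem S.add_mem S.neg_mem
    (fun {x y} hy => (hmul x y hy).1) (fun {x y} hx => (hmul y x hx).2)
  have hJ : ∀ z : A, z ∈ J ↔ z ∈ S := fun z => TwoSidedIdeal.mem_mk' _ _ _ _ _ _ z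
  have hcl : IsClosed (J : Set A) := by
    rw [show (J : Set A) = (S : Set A) from Set.ext hJ]
    exact (sandwichSums a).isClosed_topologicalClosure
  have hmem : star a * a * star a * a ∈ J := by
    rw [hJ]
    refine (sandwichSums a).le_topologicalClosure ⟨1, ![star a], ![star a * a], ?_⟩
    simp [mul_assoc]
  have hbot : J ≠ ⊥ := by
    intro h0
    rw [h0, TwoSidedIdeal.mem_bot] at hmem
    have hs : IsSelfAdjoint (star a * a) := IsSelfAdjoint.star_mul_self a
    have h2 : star a * a = 0 := by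
      rw [← norm_eq_zero, ← sq_eq_zero_iff, ← hs.norm_mul_self, norm_eq_zero]
      rw [mul_assoc] at hmem
      exact hmem
    exact ha (CStarRing.star_mul_self_eq_zero_iff a |>.1 h2)
  have hb : b ∈ S := by
    rw [← hJ, (h J hcl).resolve_left hbot]
    trivial
  obtain ⟨z, ⟨n, u, v, rfl⟩, hz⟩ := Metric.mem_closure_iff.1 hb ε hε
  refine ⟨n, fun i => inr (u i), fun i => inr (v i),
    fun i => ⟨⟨_, rfl⟩, ⟨_, rfl⟩⟩, ?_⟩
  rw [dist_eq_norm, norm_sub_rev] at hz
  have hsum : ∑ i, (inr (u i) : Unitization ℂ A) * inr a * inr (v i) =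
      inr (∑ i, u i * a * v i) := by
    simp [← inr_mul]
    exact (map_sum (Unitization.inrNonUnitalAlgHom ℂ A) _ _).symm
  rw [hsum, ← inr_sub, norm_inr]
  exact hz.le

private def sndL : Unitization ℂ A →ₗ[ℂ] A where
  toFun x := x.snd
  map_add' := snd_add
  map_smul' := snd_smul

private def inrL : A →ₗ[ℂ] Unitization ℂ A where
  toFun x := inr x
  map_add' := inr_add ℂ
  map_smul' := inr_smul ℂ

private theorem snd_star_mul {k : ℕ} (Y : CStarMatrix (Fin k) (Fin k) (Unitization ℂ A))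
    (hY : ∀ i j, Y i j ∈ inrSet A) :
    (star Y * Y).map (fun x => x.snd) = star (Y.map fun x => x.snd) * Y.map fun x => x.snd := by
  ext i j
  simp only [CStarMatrix.map_apply, CStarMatrix.mul_apply, CStarMatrix.star_apply]
  refine (map_sum (sndL (A := A)) _ _).trans (Finset.sum_congr rfl fun l _ => ?_)
  show (star (Y l i) * Y l j).snd = _
  have h1 := mem_inrSet.1 (hY l i)
  have h2 := mem_inrSet.1 (hY l j)
  simp [h1, h2]

theorem hasCPAPOn_inrSet (h : HasCPAP A) : HasCPAPOn (inrSet A) := by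
  intro D hD ε hε
  classical
  obtain ⟨N, ρ, ψ, hρ, hψ, hD'⟩ := h (D.image fun x => x.snd) ε hε
  refine ⟨N, ρ ∘ₗ sndL, inrL ∘ₗ ψ, ?_, ?_, ?_⟩
  · intro k Y hY
    obtain ⟨Z, hZ⟩ := hρ k (Y.map fun x => x.snd)
    exact ⟨Z, by rw [← hZ, ← snd_star_mul Y hY]; rfl⟩
  · intro k Y
    obtain ⟨Z, hZ⟩ := hψ k Y
    refine ⟨Z.map fun x => (inr x : Unitization ℂ A), ?_⟩
    refine CStarMatrix.ext fun i j => ?_
    have := congrArg (fun M : CStarMatrix (Fin k) (Fin k) A => M i j) hZ
    simp only [CStarMatrix.map_apply, CStarMatrix.mul_apply, CStarMatrix.star_apply] at this ⊢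
    rw [LinearMap.comp_apply, this, map_sum]
    exact Finset.sum_congr rfl fun l _ => by simp [inrL]
  · intro a ha
    have := hD' a.snd (Finset.mem_image_of_mem _ ha)
    show ‖inr (ψ (ρ a.snd)) - a‖ ≤ ε
    conv_lhs => rw [← inr_snd (mem_inrSet.1 (hD a ha))]
    rwa [← inr_sub, norm_inr]

theorem inrSet_aut {G : Type*} [Group G] (α : G →* (A ≃⋆ₐ[ℂ] A)) (g : G) (x : Unitization ℂ A) :
    x ∈ inrSet A ↔ extAction α g x ∈ inrSet A := by
  constructor
  · rintro ⟨a, rfl⟩
    exact ⟨α g a, (extAction_inr α g a).symm⟩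
  · rintro ⟨b, hb⟩
    refine ⟨α g⁻¹ b, (extAction α g).injective ?_⟩
    show extAction α g _ = extAction α g x
    rw [extAction_inr, ← hb, ← StarAlgEquiv.mul_apply, ← map_mul, mul_inv_cancel, map_one]
    rfl

section

attribute [local instance] CStarAlgebra.spectralOrder CStarAlgebra.spectralOrderedRing

private theorem exists_sandwich {T : Unitization ℂ A} (hT : 0 ≤ T) (c : A) :
    ∃ z : A, (inr (star z * z) : Unitization ℂ A) = star (inr c) * T * inr c := by
  obtain ⟨v, rfl⟩ := CStarAlgebra.nonneg_iff_eq_star_mul_self.mp hT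
  refine ⟨(v * inr c).snd, ?_⟩
  rw [inr_mul, inr_star, inr_snd (by simp), star_mul]
  simp only [mul_assoc]

/-- If `r (star x x) = star y y + star z z` then `τ (star y y) ≤ r τ (star x x)`. -/
private theorem toFun_le_smul (τ : TraceWeight A) {x y z : A} {r : ℝ≥0}
    (h : ((r : ℝ) : ℂ) • (star x * x) = star y * y + star z * z) :
    τ.toFun (star y * y) ≤ r * τ.toFun (star x * x) := by
  rw [← τ.smul, h, τ.add]
  exact le_self_add

private theorem toFun_mul_left (τ : TraceWeight A) (a x : A) :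
    τ.toFun (star (a * x) * (a * x)) ≤ (‖a‖₊ ^ 2 : ℝ≥0) * τ.toFun (star x * x) := by
  have hT : 0 ≤ algebraMap ℝ (Unitization ℂ A) (‖a‖ ^ 2) - star (inr a) * inr a := by
    rw [sub_nonneg, ← norm_inr (𝕜 := ℂ) a]
    exact CStarAlgebra.star_mul_le_algebraMap_norm_sq
  obtain ⟨z, hz⟩ := exists_sandwich hT x
  refine toFun_le_smul τ (z := z) (inr_injective (R := ℂ) ?_)
  rw [inr_add, hz, inr_smul, inr_mul, inr_mul, inr_star, inr_star, inr_mul, star_mul,
    Algebra.algebraMap_eq_smul_one]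
  simp [mul_sub, sub_mul, mul_assoc, ← Complex.ofReal_pow, Complex.coe_smul]

private theorem toFun_mul_right (τ : TraceWeight A) (a x : A) :
    τ.toFun (star (x * a) * (x * a)) ≤ (‖a‖₊ ^ 2 : ℝ≥0) * τ.toFun (star x * x) := by
  have := toFun_mul_left τ (star a) (star x)
  simp only [star_mul, star_star, nnnorm_star] at this
  rw [τ.tracial x, τ.tracial (x * a)]
  simpa [star_mul, mul_assoc] using this

private theorem toFun_zero (τ : TraceWeight A) : τ.toFun (star (0 : A) * 0) = 0 := by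
  simpa using τ.smul 0 0

theorem IsDensTrace.pos {τ : TraceWeight A} (hτ : IsDensTrace τ) (hs : IsTopSimple A) {x : A}
    (hx : x ≠ 0) : 0 < τ.toFun (star x * x) := by
  let N : Set A := {y | τ.toFun (star y * y) = 0}
  have hadd : ∀ {y z}, y ∈ N → z ∈ N → y + z ∈ N := by
    intro y z (hy : τ.toFun _ = 0) (hz : τ.toFun _ = 0)
    let s : ℂ := ((Real.sqrt 2 : ℝ) : ℂ)
    have hss : star s * s = ((((2 : ℝ≥0)) : ℝ) : ℂ) := by
      simp [s, ← Complex.ofReal_mul, Real.mul_self_sqrt]
    have key : star (y + z) * (y + z) + star (y - z) * (y - z) =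
        star (s • y) * (s • y) + star (s • z) * (s • z) := by
      simp only [star_smul, smul_mul_smul_comm, hss, star_add, star_sub, add_mul, mul_add, sub_mul,
        mul_sub]
      rw [show ((((2 : ℝ≥0)) : ℝ) : ℂ) = 2 by norm_num, two_smul, two_smul]
      abel
    have h1 := congrArg τ.toFun key
    rw [τ.add, τ.add, star_smul, star_smul, smul_mul_smul_comm, smul_mul_smul_comm, hss, τ.smul,
      τ.smul, hy, hz, mul_zero, add_zero, add_eq_zero] at h1
    exact h1.1
  have hneg : ∀ {y}, y ∈ N → -y ∈ N := fun {y} hy => by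
    show τ.toFun (star (-y) * -y) = 0
    rw [star_neg, neg_mul_neg]
    exact hy
  let J : TwoSidedIdeal A := TwoSidedIdeal.mk' N (toFun_zero τ) hadd hneg
    (fun {a y} (hy : τ.toFun _ = 0) => nonpos_iff_eq_zero.1
      ((toFun_mul_left τ a y).trans (by rw [hy, mul_zero])))
    (fun {y a} (hy : τ.toFun _ = 0) => nonpos_iff_eq_zero.1
      ((toFun_mul_right τ a y).trans (by rw [hy, mul_zero])))
  have hJ : ∀ z : A, z ∈ J ↔ z ∈ N := fun z => TwoSidedIdeal.mem_mk' _ _ _ _ _ _ z
  have hcl : IsClosed (J : Set A) := by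
    rw [show (J : Set A) = (fun y : A => τ.toFun (star y * y)) ⁻¹' Set.Iic 0 from
      Set.ext fun z => (hJ z).trans nonpos_iff_eq_zero.symm]
    exact hτ.lsc.isClosed_preimage 0
  rcases hs J hcl with h | h
  · rw [pos_iff_ne_zero]
    intro h0
    have : x ∈ J := (hJ x).2 h0
    rw [h, TwoSidedIdeal.mem_bot] at this
    exact hx this
  · obtain ⟨y, hy⟩ := hτ.ne_zero
    exact absurd ((hJ y).1 (by rw [h]; trivial)) hy

theorem IsDensTrace.finite {τ : TraceWeight A} (hτ : IsDensTrace τ) {e c : A} (h : e * c = c) :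
    τ.toFun (star c * c) ≠ ⊤ := by
  obtain ⟨x, hx, hxe⟩ : ∃ x, τ.toFun (star x * x) < ⊤ ∧
      ‖star x * x - star e * e‖ < 1 := by
    have ho : IsOpen {y : A | ‖star y * y - star e * e‖ < 1} :=
      isOpen_lt (by fun_prop) continuous_const
    obtain ⟨x, hx1, hx2⟩ := hτ.dense.exists_mem_open ho ⟨e, by simp⟩
    exact ⟨x, hx1, hx2⟩
  set δ := ‖star x * x - star e * e‖
  let d : Unitization ℂ A := inr (star x * x - star e * e)
  have hd : IsSelfAdjoint d :=
    ((IsSelfAdjoint.star_mul_self x).sub (IsSelfAdjoint.star_mul_self e)).inr ℂ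
  have hT : 0 ≤ algebraMap ℝ (Unitization ℂ A) δ + d := by
    have := (neg_le_iff_add_nonneg').1 hd.neg_algebraMap_norm_le_self
    rwa [show ‖d‖ = δ from norm_inr _] at this
  obtain ⟨z, hz⟩ := exists_sandwich hT c
  have hec : star c * (star e * e) * c = star c * c := by
    rw [show star c * (star e * e) * c = star (e * c) * (e * c) by
      simp [star_mul, mul_assoc], h]
  let r : ℝ≥0 := ⟨1 - δ, by linarith⟩
  let w : ℂ := ((Real.sqrt r : ℝ) : ℂ)
  have hww : star w * w = ((r : ℝ) : ℂ) := by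
    simp [w, ← Complex.ofReal_mul]
  have key : ((((1 : ℝ≥0)) : ℝ) : ℂ) • (star (x * c) * (x * c)) =
      star (w • c) * (w • c) + star z * z := by
    rw [star_smul, smul_mul_smul_comm, hww]
    refine inr_injective (R := ℂ) ?_
    rw [inr_add, hz, NNReal.coe_one, Complex.ofReal_one, one_smul, inr_smul]
    simp only [d, inr_sub, mul_add, add_mul, mul_sub, sub_mul, Algebra.algebraMap_eq_smul_one,
      ← inr_star, ← inr_mul, hec, mul_smul_comm, smul_mul_assoc, mul_one]
    simp only [star_mul, mul_assoc] at hec ⊢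
    rw [show (r : ℝ) = 1 - δ from rfl, Complex.ofReal_sub, Complex.ofReal_one, sub_smul, one_smul,
      Complex.coe_smul]
    abel
  have h1 := toFun_le_smul τ key
  rw [star_smul, smul_mul_smul_comm, hww, τ.smul, ENNReal.coe_one, one_mul] at h1
  have h2 := ne_top_of_le_ne_top
    (ENNReal.mul_ne_top ENNReal.coe_ne_top hx.ne) (h1.trans (toFun_mul_right τ c x))
  have hr : (r : ℝ≥0∞) ≠ 0 := by
    rw [ENNReal.coe_ne_zero, ← NNReal.coe_ne_zero]
    exact (by linarith : (0 : ℝ) < 1 - δ).ne'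
  exact fun htop => h2 (by rw [htop, ENNReal.mul_top hr])

end

end Vale.P095.SI.NU
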