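import Vale.Agent.P095.SI.NU.SysLift
import Vale.Agent.P095.SI.Pieces

/-!
# P095 (SI): orthogonal pieces under the square zero element, in an algebra with copies

From almost invariant exact square zero elements with almost full trace, in an algebra with
equivariant copies: a plateau version `x` of a first copy `y`, and `L` exactly orthogonal pieces
under `x x*`. The pieces are `s Q s`, `s` a cutoff of `y y*` and `Q` a product, over `L` further
commuting copies `y i`, of `y i * star (y i)` or `star (y i) * y i`.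

The copies see the trace bound because some separable invariant subalgebra already does.
-/

open Filter Topology

namespace Vale.P095.SI

open Vale.P095.Tracial (IsTrace pullLin pullLin_apply)
open Vale.P095.Nonunital (Sys Sub exists_copies)

variable {G : Type*} [Group G] {E : Type*} [CStarAlgebra E]

section Order

attribute [local instance] CStarAlgebra.spectralOrder CStarAlgebra.spectralOrderedRing

/-- A trace vanishes or is a multiple of a trace with value one at one. -/
private theorem trace_normalize {B : Type*} [CStarAlgebra B] {t : B →ₗ[ℝ] ℝ} (ht : IsTrace t) :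
    t = 0 ∨ ∃ t' : B →ₗ[ℝ] ℝ, IsTrace t' ∧ t' 1 = 1 ∧ t = t 1 • t' := by
  rcases ht.one_nonneg.eq_or_lt with h | h
  · refine Or.inl (LinearMap.ext fun a => ?_)
    have := ht.cauchy_schwarz 1 a
    rw [star_one, one_mul, one_mul, ← h, zero_mul] at this
    exact pow_eq_zero_iff two_ne_zero |>.1 (le_antisymm this (sq_nonneg _))
  · refine Or.inr ⟨(t 1)⁻¹ • t, ⟨fun x => mul_nonneg (inv_nonneg.2 h.le) (ht.nonneg x),
      fun x y => congrArg ((t 1)⁻¹ * ·) (ht.comm x y),
      fun x => congrArg ((t 1)⁻¹ * ·) (ht.map_star x)⟩, ?_, ?_⟩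
    · rw [LinearMap.smul_apply, smul_eq_mul, inv_mul_cancel₀ h.ne']
    · rw [smul_smul, mul_inv_cancel₀ h.ne', one_smul]

variable [Countable G]

/-- A bound on the defect by all traces of `E` holds, up to `δ`, for all traces of some separable
invariant subalgebra. -/
private theorem exists_sub_defect (sys : Sys G E) (y : E) {ε δ : ℝ} (hδ : 0 < δ)
    (hy : ∀ t : E →ₗ[ℝ] ℝ, IsTrace t → t (1 - (star y * y + y * star y)) ≤ ε * t 1) :
    ∃ (S : Sub sys) (y' : S.S), (y' : E) = y ∧ ∀ t : S.S →ₗ[ℝ] ℝ, IsTrace t → t 1 = 1 →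
      t (1 - (star y' * y' + y' * star y')) ≤ ε + δ := by
  classical
  by_contra! hne
  let I := {S : Sub sys // y ∈ S.S}
  choose t ht ht1 htc using fun S : I => hne S.1 ⟨y, S.2⟩ rfl
  let F : E → I → ℝ := fun x S => if h : x ∈ S.1.S then t S ⟨x, h⟩ else 0
  have hbd : ∀ x S, F x S ∈ Set.Icc (-‖x‖) ‖x‖ := by
    intro x S
    simp only [F]
    split_ifs with h
    · exact abs_le.1 (abs_trace_le_norm (ht S) (ht1 S) ⟨x, h⟩)
    · exact ⟨neg_nonpos.2 (norm_nonneg x), norm_nonneg x⟩
  let φ : Finset E → Filter I := fun P => 𝓟 {S | (P : Set E) ⊆ S.1.S}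
  have : (⨅ P, φ P).NeBot := by
    refine iInf_neBot_of_directed' (fun P Q => ⟨P ∪ Q, ?_, ?_⟩) fun P => ?_
    · exact principal_mono.2 fun S hS => Set.Subset.trans (by simp) hS
    · exact principal_mono.2 fun S hS => Set.Subset.trans (by simp) hS
    · obtain ⟨S, hcl, hsep, hinv, hPS⟩ := Vale.P095.Tracial.exists_invariant_subalgebra sys.act sys.mul
        sys.one (insert y (P : Set E)) (P.finite_toSet.insert y).countable
      exact principal_neBot_iff.2 ⟨⟨⟨S, hcl, hsep, hinv⟩, hPS (Set.mem_insert _ _)⟩,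
        fun z hz => hPS (Set.mem_insert_of_mem _ hz)⟩
  set U : Ultrafilter I := Ultrafilter.of (⨅ P, φ P) with hU
  have hev : ∀ x : E, ∀ᶠ S in (U : Filter I), x ∈ S.1.S := fun x =>
    Ultrafilter.of_le _ (mem_iInf_of_mem {x}
      (mem_of_superset (mem_principal_self _) fun S hS => hS (by simp)))
  have hlim : ∀ x, ∃ l, Tendsto (F x) (U : Filter I) (𝓝 l) := by
    intro x
    obtain ⟨l, -, hl⟩ := (isCompact_Icc (a := -‖x‖) (b := ‖x‖)).ultrafilter_le_nhds (U.map (F x))
      (le_principal_iff.2 (Filter.mem_map.2 (Eventually.of_forall (hbd x))))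
    exact ⟨l, hl⟩
  choose l hl using hlim
  let T : E →ₗ[ℝ] ℝ :=
    { toFun := l
      map_add' := fun a b => by
        refine tendsto_nhds_unique (hl (a + b)) (((hl a).add (hl b)).congr' ?_)
        filter_upwards [hev a, hev b] with S ha hb
        simp only [F, dif_pos ha, dif_pos hb, dif_pos (add_mem ha hb), ← map_add]
        rfl
      map_smul' := fun r a => by
        refine tendsto_nhds_unique (hl (r • a)) (((hl a).const_mul r).congr' ?_)
        filter_upwards [hev a, hev (r • a)] with S ha hra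
        simp only [F, dif_pos ha, dif_pos hra]
        rw [← smul_eq_mul, ← map_smul]
        rfl }
  have hT : IsTrace T := by
    refine ⟨fun x => ?_, fun a b => ?_, fun a => ?_⟩
    · refine ge_of_tendsto (hl (star x * x)) ?_
      filter_upwards [hev x] with S hx
      simp only [F, dif_pos (mul_mem (star_mem hx) hx)]
      exact (ht S).nonneg ⟨x, hx⟩
    · refine tendsto_nhds_unique (hl (a * b)) ((hl (b * a)).congr' ?_)
      filter_upwards [hev a, hev b] with S ha hb
      simp only [F, dif_pos (mul_mem ha hb), dif_pos (mul_mem hb ha)]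
      exact (ht S).comm ⟨b, hb⟩ ⟨a, ha⟩
    · refine tendsto_nhds_unique (hl (star a)) ((hl a).congr' ?_)
      filter_upwards [hev a] with S ha
      simp only [F, dif_pos ha, dif_pos (star_mem ha)]
      exact ((ht S).map_star ⟨a, ha⟩).symm
  have hT1 : T 1 = 1 := by
    refine tendsto_nhds_unique (hl 1) (Tendsto.congr (fun S => ?_) tendsto_const_nhds)
    simp only [F, dif_pos (one_mem S.1.S)]
    exact (ht1 S).symm
  have hlow : ε + δ ≤ T (1 - (star y * y + y * star y)) := by
    refine ge_of_tendsto (hl _) (Eventually.of_forall fun S => ?_)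
    have hm : (1 - (star y * y + y * star y)) ∈ S.1.S := sub_mem (one_mem _)
      (add_mem (mul_mem (star_mem S.2) S.2) (mul_mem S.2 (star_mem S.2)))
    simp only [F, dif_pos hm]
    exact (htc S).le
  have := hy T hT
  rw [hT1, mul_one] at this
  linarith

omit [Countable G] in
/-- Exactly orthogonal products of commuting square zero elements with almost full trace. -/
private theorem exists_products (m : ℕ) : ∀ y : Fin m → E, (∀ i, ‖y i‖ ≤ 1) →
    (∀ i, y i * y i = 0) →
    (∀ i j, i ≠ j → Commute (y i) (y j) ∧ Commute (y i) (star (y j))) →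
    ∃ q : (Fin m → Bool) → E, (∀ w, 0 ≤ q w ∧ ‖q w‖ ≤ 1) ∧
      (∀ w w', w ≠ w' → q w * q w' = 0) ∧
      (∀ (w : Fin m → Bool) (z : E),
        (∀ i, Commute z (y i) ∧ Commute z (star (y i))) → Commute z (q w)) ∧
      ∀ (t : E →ₗ[ℝ] ℝ) (ε : ℝ), IsTrace t → t 1 = 1 → 0 ≤ ε →
        (∀ i, 1 - ε ≤ t (star (y i) * y i + y i * star (y i))) →
        ∀ w, (1 / 2 : ℝ) ^ m - ε ≤ t (q w) := by
  induction m with
  | zero =>
    intro y _ _ _
    refine ⟨fun _ => 1, fun w => ⟨zero_le_one, ?_⟩,
      fun w w' hw => absurd (Subsingleton.elim w w') hw, fun w z _ => Commute.one_right z,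
      fun t ε _ h1 hε _ w => by rw [h1]; norm_num; exact hε⟩
    nontriviality E
    rw [norm_one]
  | succ m ih =>
    intro y hy hyy hc
    obtain ⟨Q, hQ, hQo, hQc, hQt⟩ := ih (fun i => y i.succ) (fun i => hy _) (fun i => hyy _)
      fun i j hij => hc _ _ fun h => hij (Fin.succ_injective m h)
    set x := y 0 with hx
    set p : Bool → E := fun b => if b then x * star x else star x * x with hp
    have hxQ : ∀ w, Commute x (Q w) := fun w => hQc w x fun i => hc 0 _ (Fin.succ_ne_zero i).symm
    have hxsQ : ∀ w, Commute (star x) (Q w) := fun w => by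
      have h := hQc w (star x) fun i =>
        ⟨(hc i.succ 0 (Fin.succ_ne_zero i)).2.symm,
          (hc 0 i.succ (Fin.succ_ne_zero i).symm).1.star_star⟩
      exact h
    have hpQ : ∀ b w, Commute (p b) (Q w) := fun b w => by
      cases b <;> simp only [p, Bool.false_eq_true, ↓reduceIte]
      · exact (hxsQ w).mul_left (hxQ w)
      · exact (hxQ w).mul_left (hxsQ w)
    have hp0 : ∀ b, 0 ≤ p b := fun b => by
      cases b <;> simp [p, star_mul_self_nonneg, mul_star_self_nonneg]
    have hp1 : ∀ b, ‖p b‖ ≤ 1 := fun b => by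
      cases b <;> simp [p, CStarRing.norm_star_mul_self, CStarRing.norm_self_mul_star] <;>
        nlinarith [norm_nonneg x, hy 0]
    have hporth : ∀ b b', b ≠ b' → p b * p b' = 0 := by
      have h1 : star x * x * (x * star x) = 0 := by
        rw [mul_assoc, ← mul_assoc x x, hyy 0, zero_mul, mul_zero]
      have h2 : x * star x * (star x * x) = 0 := by
        rw [mul_assoc, ← mul_assoc (star x) (star x), ← star_mul, hyy 0, star_zero, zero_mul,
          mul_zero]
      intro b b' hb
      cases b <;> cases b' <;>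
        first
          | exact absurd rfl hb
          | exact h1
          | exact h2
    refine ⟨fun w => Q (fun i => w i.succ) * p (w 0), fun w => ⟨?_, ?_⟩, fun w w' hw => ?_,
      fun w z hz => ?_, fun t ε ht h1 hε hfull w => ?_⟩
    · exact (hpQ _ _).symm.mul_nonneg (hQ _).1 (hp0 _)
    · exact (norm_mul_le _ _).trans (mul_le_one₀ (hQ _).2 (norm_nonneg _) (hp1 _))
    · have hcm := hpQ (w 0) fun i => w' i.succ
      calc Q (fun i => w i.succ) * p (w 0) * (Q (fun i => w' i.succ) * p (w' 0))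
          = (Q (fun i => w i.succ) * Q fun i => w' i.succ) * (p (w 0) * p (w' 0)) := by
            rw [mul_assoc, ← mul_assoc (p (w 0)), hcm.eq]; simp only [mul_assoc]
        _ = 0 := by
            rcases eq_or_ne (w 0) (w' 0) with h0 | h0
            · rw [hQo _ _ fun he => hw (funext fun i => Fin.cases h0 (fun j => congrFun he j) i),
                zero_mul]
            · rw [hporth _ _ h0, mul_zero]
    · refine (hQc _ z fun i => hz i.succ).mul_right ?_
      dsimp only [p]
      cases w 0 <;> simp only [Bool.false_eq_true, ↓reduceIte]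
      · exact (hz 0).2.mul_right (hz 0).1
      · exact (hz 0).1.mul_right (hz 0).2
    · set U := Q fun i => w i.succ
      have hU : (1 / 2 : ℝ) ^ m - ε ≤ t U := hQt t ε ht h1 hε (fun i => hfull _) _
      obtain ⟨f1, f2, -, -⟩ := trace_facts ht h1 (δ := 0) (hy 0) (hyy 0) (hfull 0) (hQ _).1
        (hQ fun i => w i.succ).2 (by rw [(hxQ _).eq, sub_self, norm_zero])
      dsimp only
      rw [pow_succ]
      cases w 0 <;> simp only [p, Bool.false_eq_true, ↓reduceIte] <;> linarith

theorem exists_pieces_sys (sys : Sys G E) (h : InvSquareZeroSys sys) (L : ℕ) :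
    ∃ κ : ℝ, 0 < κ ∧ ∀ (S : Finset G) (η : ℝ), 0 < η → ∃ (x : E) (q : Fin L → E),
      ‖x‖ ≤ 1 ∧ x * x = 0 ∧ (∀ g ∈ S, ‖sys.act g x - x‖ ≤ η) ∧
      (∀ p, (∃ y, q p = star y * y) ∧ ‖q p‖ ≤ 1) ∧
      (∀ p p', p ≠ p' → q p * q p' = 0) ∧
      (∀ p, ‖x * star x * q p - q p‖ ≤ η) ∧
      ∀ t : E →ₗ[ℝ] ℝ, IsTrace t → t (1 - (star x * x + x * star x)) ≤ η * t 1 ∧
        ∀ p, κ * t 1 ≤ t (q p) := by
  classical
  refine ⟨(1 / 2) ^ L / 4, by positivity, fun S η hη => ?_⟩
  obtain ⟨δw, hδw, hweight⟩ :=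
    cfc_almost_intertwine (A := E) continuous_pieceWeight zero_le_one (half_pos hη)
  set ε : ℝ := min (η / 8) (min (δw / 4) ((1 / 2) ^ L / 64)) with hεdef
  have hε : 0 < ε := lt_min (by positivity) (lt_min (by positivity) (by positivity))
  have hεη : 8 * ε ≤ η := by
    have : ε ≤ η / 8 := min_le_left _ _
    linarith
  have hεw : 4 * ε ≤ δw := by
    have : ε ≤ δw / 4 := (min_le_right _ _).trans (min_le_left _ _)
    linarith
  have hεL : 64 * ε ≤ (1 / 2) ^ L := by
    have : ε ≤ (1 / 2) ^ L / 64 := (min_le_right _ _).trans (min_le_right _ _)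
    linarith
  obtain ⟨z, hz, hzz, hzS, hzt⟩ := h S ε hε
  obtain ⟨T, z', hz', hT⟩ := exists_sub_defect sys z hε hzt
  obtain ⟨T', π, hπ, hπe⟩ := exists_copies T (Option (Fin L))
  -- the copies in `E`
  let φ : Option (Fin L) → (T.S →⋆ₐ[ℂ] E) := fun i => T'.S.subtype.comp (π i)
  have hφc : ∀ i j, i ≠ j → ∀ a b, Commute (φ i a) (φ j b) := fun i j hij a b =>
    (hπ i j hij a b).map T'.S.subtype
  have hφn : ∀ i (b : T.S), ‖φ i b‖ ≤ ‖(b : E)‖ := fun i b =>
    NonUnitalStarAlgHom.norm_apply_le (φ i) b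
  have hφe : ∀ i g (b : T.S), sys.act g (φ i b) = φ i (T.act g b) := fun i g b =>
    (congrArg Subtype.val (hπe i g b)).symm
  have hzz' : z' * z' = 0 := Subtype.ext (by
    show (z' : E) * (z' : E) = 0
    rw [hz']; exact hzz)
  let y : Option (Fin L) → E := fun i => φ i z'
  have hy1 : ∀ i, ‖y i‖ ≤ 1 := fun i => (hφn i z').trans (by rw [hz']; exact hz)
  have hyy : ∀ i, y i * y i = 0 := fun i => by
    simp only [y]; rw [← map_mul, hzz', map_zero]
  have hyt : ∀ (t : E →ₗ[ℝ] ℝ), IsTrace t → t 1 = 1 → ∀ i,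
      1 - 2 * ε ≤ t (star (y i) * y i + y i * star (y i)) := fun t ht h1 i => by
    have := hT _ (ht.pull (φ i)) (by rw [pullLin_apply, map_one, h1])
    simp only [pullLin_apply, map_sub, map_one, map_add, map_mul, map_star, h1] at this
    simp only [y, map_add]
    linarith
  obtain ⟨Q, hQ, hQo, hQc, hQt⟩ := exists_products L (fun i => y (some i)) (fun i => hy1 _)
    (fun i => hyy _) fun i j hij => by
      have hne : (some i : Option (Fin L)) ≠ some j := fun he => hij (Option.some_injective _ he)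
      exact ⟨hφc _ _ hne _ _, by simp only [y]; rw [← map_star]; exact hφc _ _ hne _ _⟩
  -- the plateau version of the first copy
  set v := y none with hv
  have hv1 : ‖v‖ ≤ 1 := hy1 none
  have hvv : v * v = 0 := hyy none
  have hvQ : ∀ w, Commute v (Q w) ∧ Commute (star v) (Q w) := fun w => by
    have hne : ∀ i : Fin L, (none : Option (Fin L)) ≠ some i := fun i => nofun
    constructor <;> refine hQc w _ fun i => ?_ <;> simp only [v, y, ← map_star] <;>
      exact ⟨hφc _ _ (hne i) _ _, hφc _ _ (hne i) _ _⟩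
  obtain ⟨a₀, ha₀⟩ : ∃ a₀, a₀ = star v * v := ⟨_, rfl⟩
  obtain ⟨b₀, hb₀⟩ : ∃ b₀, b₀ = v * star v := ⟨_, rfl⟩
  have hvs : ‖star v‖ ≤ 1 := by rwa [norm_star]
  have ha0 : 0 ≤ a₀ := ha₀ ▸ star_mul_self_nonneg v
  have hb0 : 0 ≤ b₀ := hb₀ ▸ mul_star_self_nonneg v
  have ha1 : ‖a₀‖ ≤ 1 := by
    rw [ha₀, CStarRing.norm_star_mul_self]; nlinarith [norm_nonneg v]
  have hb1 : ‖b₀‖ ≤ 1 := by
    rw [hb₀, CStarRing.norm_self_mul_star]; nlinarith [norm_nonneg v]
  have hav : a₀ * v = 0 := by rw [ha₀, mul_assoc, hvv, mul_zero]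
  have hvab : v * a₀ = b₀ * v := by rw [ha₀, hb₀, mul_assoc]
  set ψ := cfc pieceWeight a₀ with hψ
  set x := v * ψ with hxdef
  have hψs : IsSelfAdjoint ψ := IsSelfAdjoint.cfc
  have hψv : ψ * v = pieceWeight 0 • v :=
    Vale.P101.cfc_mul_of_eigen ha0.isSelfAdjoint (by simp [hav]) continuous_pieceWeight
  have hxx : x * x = 0 := by
    rw [hxdef, mul_assoc, ← mul_assoc ψ, hψv, smul_mul_assoc, mul_smul_comm, ← mul_assoc, hvv,
      zero_mul, smul_zero]
  set r : ℝ → ℝ := fun t => t * pieceWeight t * pieceWeight t with hr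
  have hrc : Continuous r :=
    (continuous_id.mul continuous_pieceWeight).mul continuous_pieceWeight
  have hmul3 : ∀ c : E, IsSelfAdjoint c →
      cfc r c = c * cfc pieceWeight c * cfc pieceWeight c := fun c hc => by
    rw [hr, cfc_mul (fun t => t * pieceWeight t) pieceWeight c
      (continuous_id.mul continuous_pieceWeight).continuousOn continuous_pieceWeight.continuousOn,
      cfc_mul (fun t => t) pieceWeight c continuousOn_id continuous_pieceWeight.continuousOn,
      cfc_id' ℝ c]
  have hcomm : ∀ c : E, IsSelfAdjoint c → c * cfc pieceWeight c = cfc pieceWeight c * c :=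
    fun c hc => Vale.P101.intertwine_cfc hc hc rfl continuous_pieceWeight
  have hxsx : star x * x = cfc r a₀ := by
    rw [hxdef, star_mul, hψs.star_eq, mul_assoc ψ, ← mul_assoc (star v), ← ha₀, ← mul_assoc,
      ← hcomm a₀ ha0.isSelfAdjoint, hmul3 a₀ ha0.isSelfAdjoint]
  have hψint : v * ψ = cfc pieceWeight b₀ * v :=
    Vale.P101.intertwine_cfc ha0.isSelfAdjoint hb0.isSelfAdjoint hvab continuous_pieceWeight
  have hxxs : x * star x = cfc r b₀ := by
    rw [hxdef, hψint, star_mul, (IsSelfAdjoint.cfc : IsSelfAdjoint (cfc pieceWeight b₀)).star_eq,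
      mul_assoc, ← mul_assoc v, ← hb₀, ← mul_assoc, ← hcomm b₀ hb0.isSelfAdjoint,
      hmul3 b₀ hb0.isSelfAdjoint]
  have hr01 : ∀ t : ℝ, 0 ≤ t → t ≤ 1 → 0 ≤ r t ∧ r t ≤ 1 ∧ t ≤ r t := by
    intro t h0 h1
    simp only [hr, mul_weight_sq h0]
    split_ifs with h2 <;> refine ⟨?_, ?_, ?_⟩ <;> linarith
  have hx1 : ‖x‖ ≤ 1 := by
    have hp1 : ‖star x * x‖ ≤ 1 := by
      rw [hxsx]
      refine norm_cfc_le zero_le_one fun t ht => ?_
      obtain ⟨h0, h1⟩ := spectrum_mem_unit ha0 ha1 ht
      rw [Real.norm_eq_abs, abs_of_nonneg (hr01 t h0 h1).1]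
      exact (hr01 t h0 h1).2.1
    rw [CStarRing.norm_star_mul_self] at hp1
    nlinarith [norm_nonneg x]
  set s := cfc pieceCut b₀ with hs
  have hss : IsSelfAdjoint s := IsSelfAdjoint.cfc
  have hs1 : ‖s‖ ≤ 1 := by
    refine norm_cfc_le zero_le_one fun t ht => ?_
    obtain ⟨h0, h1⟩ := spectrum_mem_unit hb0 hb1 ht
    rw [Real.norm_eq_abs, pieceCut, abs_of_nonneg (le_max_left _ _)]
    exact max_le zero_le_one (by linarith)
  have hrs : x * star x * s = s := by
    rw [hxxs, hs, ← cfc_mul r pieceCut b₀ hrc.continuousOn continuous_pieceCut.continuousOn]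
    refine cfc_congr fun t ht => ?_
    obtain ⟨h0, h1⟩ := spectrum_mem_unit hb0 hb1 ht
    simp only [hr, mul_weight_sq h0, pieceCut]
    split_ifs with h2
    · rw [max_eq_left (by linarith), mul_zero]
    · ring
  have hsQ : ∀ w, Commute s (Q w) := fun w => by
    refine Commute.cfc_real ?_ _
    rw [hb₀]
    exact (hvQ w).1.mul_left (hvQ w).2
  let w : Fin L → (Fin L → Bool) := fun i k => decide (i = k)
  have hw : ∀ i i', i ≠ i' → w i ≠ w i' := fun i i' hne he => by
    have := congrFun he i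
    simp [w, Ne.symm hne] at this
  refine ⟨x, fun i => s * Q (w i) * s, hx1, hxx, fun g hg => ?_, fun i => ⟨?_, ?_⟩,
    fun i i' hne => ?_, fun i => ?_, fun t ht => ?_⟩
  · -- invariance
    have hαn : ∀ a : E, ‖sys.act g a‖ ≤ ‖a‖ := fun a =>
      NonUnitalStarAlgHom.norm_apply_le (sys.act g) a
    have hd : ‖sys.act g v - v‖ ≤ ε := by
      simp only [v, y, hφe, ← map_sub]
      refine (hφn none _).trans ?_
      show ‖sys.act g (z' : E) - (z' : E)‖ ≤ ε
      rw [hz']
      exact hzS g hg
    have hα1 : ‖sys.act g v‖ ≤ 1 := (hαn v).trans hv1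
    have hd2 : ‖sys.act g a₀ - a₀‖ ≤ 2 * ε := by
      have e : sys.act g a₀ - a₀
          = star (sys.act g v) * (sys.act g v - v) + star (sys.act g v - v) * v := by
        rw [ha₀, map_mul, map_star]; simp only [mul_sub, star_sub, sub_mul]; abel
      rw [e]
      refine (norm_add_le _ _).trans ?_
      have n1 : ‖star (sys.act g v) * (sys.act g v - v)‖ ≤ ε :=
        (norm_mul_le _ _).trans ((mul_le_of_le_one_left (norm_nonneg _)
          (by rwa [norm_star])).trans hd)
      have n2 : ‖star (sys.act g v - v) * v‖ ≤ ε :=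
        (norm_mul_le _ _).trans ((mul_le_of_le_one_right (norm_nonneg _) hv1).trans
          (by rwa [norm_star]))
      linarith
    have hαψ : sys.act g ψ = cfc pieceWeight (sys.act g a₀) :=
      StarAlgHomClass.map_cfc (sys.act g) pieceWeight a₀ continuous_pieceWeight.continuousOn
        (sys.continuous_act g) ha0.isSelfAdjoint (ha0.isSelfAdjoint.map _)
    have h3 : ‖sys.act g ψ - ψ‖ ≤ η / 2 := by
      rcases subsingleton_or_nontrivial E with hE | hE
      · rw [Subsingleton.elim (sys.act g ψ - ψ) 0, norm_zero]; positivity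
      have := hweight 1 (sys.act g a₀) a₀ (ha0.isSelfAdjoint.map _) ha0.isSelfAdjoint
        ((hαn a₀).trans ha1) ha1 norm_one.le (by rw [one_mul, mul_one]; linarith)
      rw [one_mul, mul_one] at this
      rwa [hαψ, hψ]
    have e : sys.act g x - x = sys.act g v * (sys.act g ψ - ψ) + (sys.act g v - v) * ψ := by
      rw [hxdef, map_mul]; simp only [mul_sub, sub_mul]; abel
    rw [e]
    refine (norm_add_le _ _).trans ?_
    have n1 : ‖sys.act g v * (sys.act g ψ - ψ)‖ ≤ η / 2 :=
      (norm_mul_le _ _).trans ((mul_le_of_le_one_left (norm_nonneg _) hα1).trans h3)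
    have n2 : ‖(sys.act g v - v) * ψ‖ ≤ ε * 2 :=
      (norm_mul_le _ _).trans (mul_le_mul hd (norm_weight_le a₀) (norm_nonneg _) hε.le)
    linarith
  · refine ⟨CFC.sqrt (s * Q (w i) * s), ?_⟩
    rw [(CFC.sqrt_nonneg _).isSelfAdjoint.star_eq,
      CFC.sqrt_mul_sqrt_self _ (hss.conjugate_nonneg (hQ _).1)]
  · calc _ ≤ ‖s‖ * ‖Q (w i)‖ * ‖s‖ := norm_mul₃_le
      _ ≤ 1 * 1 * 1 := by gcongr; exact (hQ _).2
      _ = 1 := by norm_num
  · calc s * Q (w i) * s * (s * Q (w i') * s)
        = s * (Q (w i) * (s * s)) * Q (w i') * s := by simp only [mul_assoc]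
      _ = s * (s * s) * (Q (w i) * Q (w i')) * s := by
          rw [((hsQ (w i)).mul_left (hsQ (w i))).eq.symm]; simp only [mul_assoc]
      _ = 0 := by rw [hQo _ _ (hw i i' hne), mul_zero, zero_mul]
  · rw [← mul_assoc, ← mul_assoc, hrs, sub_self, norm_zero]
    exact hη.le
  · -- traces
    rcases trace_normalize ht with h0 | ⟨t', ht', h1, he⟩
    · simp [h0]
    have hfull := hyt t' ht' h1
    have key1 : t' (1 - (star x * x + x * star x)) ≤ η := by
      have mono : ∀ c : E, 0 ≤ c → ‖c‖ ≤ 1 → t' c ≤ t' (cfc r c) := fun c hc hc1 => by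
        refine ht'.mono ?_
        conv_lhs => rw [← cfc_id' ℝ c hc.isSelfAdjoint]
        exact cfc_mono (fun u hu => (hr01 u (spectrum_mem_unit hc hc1 hu).1
          (spectrum_mem_unit hc hc1 hu).2).2.2) continuousOn_id hrc.continuousOn
      have hf := hfull none
      have m1 := mono a₀ ha0 ha1
      have m2 := mono b₀ hb0 hb1
      rw [← hv, ← ha₀, ← hb₀, map_add] at hf
      rw [map_sub, map_add, h1, hxsx, hxxs]
      linarith
    have key2 : ∀ i, (1 / 2 : ℝ) ^ L / 4 ≤ t' (s * Q (w i) * s) := fun i => by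
      have f0 := hQt t' (2 * ε) ht' h1 (by positivity) (fun j => hfull (some j)) (w i)
      obtain ⟨f1, -, f3, -⟩ := trace_facts ht' h1 (δ := 0) hv1 hvv (hfull none) (hQ (w i)).1
        (hQ (w i)).2 (by rw [(hvQ (w i)).1.eq, sub_self, norm_zero])
      rw [← hb₀] at f1 f3
      have f6 := cut_trace_le ht' hb0 hb1 (hQ (w i)).1
      rw [← hs] at f6
      linarith
    rw [he]
    simp only [LinearMap.smul_apply, smul_eq_mul, h1, mul_one]
    refine ⟨?_, fun i => ?_⟩
    · rw [mul_comm η]; exact mul_le_mul_of_nonneg_left key1 ht.one_nonneg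
    · rw [mul_comm _ (t 1)]; exact mul_le_mul_of_nonneg_left (key2 i) ht.one_nonneg

end Order

end Vale.P095.SI
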