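import Vale.Agent.P095.SI.Relative
import Vale.Agent.P095.SI.Excise
import Vale.Agent.P095.SI.Dicho
import Vale.Agent.P095.SI.LocalOn
import Vale.Agent.P095.SI.Equivariant
import Vale.Agent.P095.SI.NU.Compare
import Vale.Agent.P095.SI.NU.SysPieces

/-!
# P095 (SI): approximate relations in the unitization

Recipe. As in `Equivariant`, with everything tested on elements of `A`: coset representatives,
data of `AsympFixOn`, `si_localOn` gives `L`, pieces in `F(A)` give `κ`.  The square roots of the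
pieces and of the defect and `x` itself, scaled by `c < 1`, have contraction representatives
(`exists_scaled_reps`); `eventually_val_le` gives `SmallW` and `LargeW`, and the norm in `F(A)`
bounds the products with each element of `A` (`eventually_mul_le`).
-/

open Filter Topology

namespace Vale.P095.SI.NU

open Vale.P095.Nonunital Vale.P095.SI Vale.P095.Tracial Unitization

variable {A : Type*} [NonUnitalCStarAlgebra A] [TopologicalSpace.SeparableSpace A]

open Vale.P101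
open scoped BoundedContinuousFunction

noncomputable section

/-! ### Norm estimates in a unital algebra -/

section Estimates

variable {B : Type*} [CStarAlgebra B]

private theorem norm_aut (θ : B ≃⋆ₐ[ℂ] B) (a : B) : ‖θ a‖ = ‖a‖ := by
  refine le_antisymm (NonUnitalStarAlgHom.norm_apply_le θ a) ?_
  have := NonUnitalStarAlgHom.norm_apply_le θ.symm (θ a)
  rwa [θ.symm_apply_apply] at this

/-- A sum of almost orthogonal elements of bounded norm. -/
private theorem norm_sum_le_of_orth {ι : Type*} (E : Finset ι) (w : ι → B) {δ R : ℝ} (hδ : 0 ≤ δ)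
    (hd : ∀ g ∈ E, ‖star (w g) * w g‖ ≤ R)
    (ho : ∀ g ∈ E, ∀ h ∈ E, g ≠ h → ‖star (w g) * w h‖ ≤ δ) :
    ‖∑ g ∈ E, w g‖ ^ 2 ≤ E.card * R + (E.card : ℝ) ^ 2 * δ := by
  classical
  rw [sq, ← CStarRing.norm_star_mul_self, star_sum, Finset.sum_mul_sum]
  refine (norm_sum_le _ _).trans ((Finset.sum_le_sum (g := fun _ => R + (E.card : ℝ) * δ)
    fun g hg => ?_).trans_eq (by rw [Finset.sum_const, nsmul_eq_mul]; ring))
  rw [← Finset.add_sum_erase E _ hg]
  refine (norm_add_le _ _).trans (add_le_add (hd g hg) ((norm_sum_le _ _).trans ?_))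
  refine (Finset.sum_le_sum (g := fun _ => δ) fun h hh =>
    ho g hg h (Finset.mem_of_mem_erase hh) (Finset.ne_of_mem_erase hh).symm).trans ?_
  rw [Finset.sum_const, nsmul_eq_mul]
  exact mul_le_mul_of_nonneg_right (by exact_mod_cast Finset.card_le_card (Finset.erase_subset g E))
    hδ

private theorem norm_star_mul_self_sub (θ : B →⋆ₐ[ℂ] B) {x : B} (hx : ‖x‖ ≤ 1) {η : ℝ}
    (h : ‖θ x - x‖ ≤ η) :
    ‖θ (star x * x) - star x * x‖ ≤ 2 * η ∧ ‖θ (x * star x) - x * star x‖ ≤ 2 * η := by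
  have hθ : ‖θ x‖ ≤ 1 := (NonUnitalStarAlgHom.norm_apply_le θ x).trans hx
  have hstar : ‖star (θ x) - star x‖ ≤ η := by rwa [← star_sub, norm_star]
  constructor
  · rw [map_mul, map_star, show star (θ x) * θ x - star x * x =
      (star (θ x) - star x) * θ x + star x * (θ x - x) by noncomm_ring]
    refine (norm_add_le _ _).trans ?_
    have h1 := norm_mul_le (star (θ x) - star x) (θ x)
    have h2 := norm_mul_le (star x) (θ x - x)
    rw [norm_star] at h2
    nlinarith [norm_nonneg (θ x - x), norm_nonneg (star (θ x) - star x)]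
  · rw [map_mul, map_star, show θ x * star (θ x) - x * star x =
      θ x * (star (θ x) - star x) + (θ x - x) * star x by noncomm_ring]
    refine (norm_add_le _ _).trans ?_
    have h1 := norm_mul_le (θ x) (star (θ x) - star x)
    have h2 := norm_mul_le (θ x - x) (star x)
    rw [norm_star] at h2
    nlinarith [norm_nonneg (θ x - x), norm_nonneg (star (θ x) - star x)]

/-- The defect of an exact square zero contraction is `y* y` for a contraction `y`. -/
private theorem exists_defect_sqrt {x : B} (hx : ‖x‖ ≤ 1) (hxx : x * x = 0) :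
    ∃ y : B, ‖y‖ ≤ 1 ∧ star y * y = 1 - (star x * x + x * star x) := by
  let _ := CStarAlgebra.spectralOrder B
  have _ := CStarAlgebra.spectralOrderedRing B
  have hsq : ∀ z : B, ‖z‖ ≤ 1 → star z * z * (star z * z) ≤ star z * z := fun z hz => by
    have h1 : z * star z ≤ 1 := (CStarAlgebra.norm_le_one_iff_of_nonneg _ (mul_star_self_nonneg z)).1
      (by rw [CStarRing.norm_self_mul_star]; exact mul_le_one₀ hz (norm_nonneg z) hz)
    have h2 := star_left_conjugate_le_conjugate h1 z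
    rwa [mul_one, ← mul_assoc, mul_assoc (star z * z)] at h2
  have hxx' : star x * star x = 0 := by rw [← star_mul, hxx, star_zero]
  set T : B := star x * x + x * star x with hT
  have hT0 : 0 ≤ T := add_nonneg (star_mul_self_nonneg x) (mul_star_self_nonneg x)
  have hTT : T * T ≤ T := by
    have e : T * T = star x * x * (star x * x) + x * star x * (x * star x) := by
      have e1 : star x * x * (x * star x) = 0 := by
        rw [← mul_assoc, mul_assoc (star x), hxx, mul_zero, zero_mul]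
      have e2 : x * star x * (star x * x) = 0 := by
        rw [← mul_assoc, mul_assoc x, hxx', mul_zero, zero_mul]
      rw [hT, add_mul, mul_add, mul_add, e1, e2]
      abel
    rw [e]
    refine add_le_add (hsq x hx) ?_
    have := hsq (star x) (by rw [norm_star]; exact hx)
    rwa [star_star] at this
  have hT1 : ‖T‖ ≤ 1 := by
    have hsT : star T = T := hT0.isSelfAdjoint
    have h := CStarAlgebra.norm_le_norm_of_nonneg_of_le
      (by simpa [hsT] using star_mul_self_nonneg T) hTT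
    have e := CStarRing.norm_star_mul_self (x := T)
    rw [hsT] at e
    rw [e] at h
    nlinarith [norm_nonneg T]
  have h1 : 0 ≤ 1 - T := sub_nonneg.2 ((CStarAlgebra.norm_le_one_iff_of_nonneg T hT0).1 hT1)
  obtain ⟨y, hy⟩ := CStarAlgebra.nonneg_iff_eq_star_mul_self.1 h1
  refine ⟨y, ?_, hy.symm⟩
  have h2 : ‖star y * y‖ ≤ 1 := by
    rw [← hy]
    exact (CStarAlgebra.norm_le_one_iff_of_nonneg _ h1).2 (sub_le_self _ hT0)
  rw [CStarRing.norm_star_mul_self] at h2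
  nlinarith [norm_nonneg y]

/-- `|F|^(-1/2) • ∑ w`. -/
private def avgSum {ι : Type*} (F : Finset ι) (w : ι → B) : B :=
  (Real.sqrt (F.card : ℝ))⁻¹ • ∑ g ∈ F, w g

private theorem coef_mul_self {ι : Type*} (F : Finset ι) :
    (Real.sqrt (F.card : ℝ))⁻¹ * (Real.sqrt (F.card : ℝ))⁻¹ = (F.card : ℝ)⁻¹ := by
  rw [← mul_inv, Real.mul_self_sqrt (Nat.cast_nonneg _)]

private theorem coef_mul_card_le {ι : Type*} {F : Finset ι} (hF : F.Nonempty) :
    (Real.sqrt (F.card : ℝ))⁻¹ * F.card ≤ F.card := by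
  refine mul_le_of_le_one_left (Nat.cast_nonneg _) (inv_le_one_of_one_le₀ ?_)
  exact Real.one_le_sqrt.2 (by exact_mod_cast hF.card_pos)

private theorem avgSum_norm_le {ι : Type*} {F : Finset ι} (hF : F.Nonempty) (w : ι → B) {δ R : ℝ}
    (hδ : 0 ≤ δ) (hd : ∀ g ∈ F, ‖star (w g) * w g‖ ≤ R)
    (ho : ∀ g ∈ F, ∀ h ∈ F, g ≠ h → ‖star (w g) * w h‖ ≤ δ) :
    ‖avgSum F w‖ ^ 2 ≤ R + F.card * δ := by
  have hn : (0 : ℝ) < F.card := by exact_mod_cast hF.card_pos
  rw [avgSum, norm_smul, Real.norm_of_nonneg (by positivity), mul_pow, sq, coef_mul_self,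
    inv_mul_le_iff₀ hn]
  exact (norm_sum_le_of_orth F w hδ hd ho).trans_eq (by ring)

private theorem avgSum_gram {ι : Type*} [DecidableEq ι] {F : Finset ι} (hF : F.Nonempty)
    (w : ι → B) (e a : B) {δ R : ℝ} (hδ : 0 ≤ δ)
    (hd : ∀ g ∈ F, ‖(star (w g) * w g - e) * a‖ ≤ R)
    (ho : ∀ g ∈ F, ∀ h ∈ F, g ≠ h → ‖star (w g) * w h‖ ≤ δ) :
    ‖(star (avgSum F w) * avgSum F w - e) * a‖ ≤ R + (F.card : ℝ) * (δ * ‖a‖) := by
  have hn : (0 : ℝ) < F.card := by exact_mod_cast hF.card_pos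
  have e1 : (star (avgSum F w) * avgSum F w - e) * a = (F.card : ℝ)⁻¹ •
      ∑ g ∈ F, ((star (w g) * w g - e) * a + ∑ h ∈ F.erase g, star (w g) * w h * a) := by
    have e2 : star (avgSum F w) * avgSum F w =
        (F.card : ℝ)⁻¹ • ∑ g ∈ F, (star (w g) * w g + ∑ h ∈ F.erase g, star (w g) * w h) := by
      rw [avgSum, star_smul, star_trivial, smul_mul_smul_comm, coef_mul_self, star_sum,
        Finset.sum_mul_sum]
      exact congrArg _ (Finset.sum_congr rfl fun g hg => (Finset.add_sum_erase F _ hg).symm)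
    simp only [← Finset.sum_mul, ← add_mul, ← smul_mul_assoc]
    refine congrArg (· * a) ?_
    rw [e2, ← sub_eq_zero]
    simp only [Finset.sum_add_distrib, Finset.sum_sub_distrib, Finset.sum_const, smul_add,
      smul_sub, ← Nat.cast_smul_eq_nsmul ℝ, smul_smul, inv_mul_cancel₀ hn.ne', one_smul]
    abel
  rw [e1, norm_smul, norm_inv, Real.norm_of_nonneg hn.le, inv_mul_le_iff₀ hn]
  refine (norm_sum_le _ _).trans ((Finset.sum_le_sum (g := fun _ => R + (F.card : ℝ) * (δ * ‖a‖))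
    fun g hg => ?_).trans_eq (by rw [Finset.sum_const, nsmul_eq_mul]))
  refine (norm_add_le _ _).trans (add_le_add (hd g hg) ((norm_sum_le _ _).trans ?_))
  refine (Finset.sum_le_sum (g := fun _ => δ * ‖a‖) fun h hh => (norm_mul_le _ _).trans
    (mul_le_mul_of_nonneg_right (ho g hg h (Finset.mem_of_mem_erase hh)
      (Finset.ne_of_mem_erase hh).symm) (norm_nonneg a))).trans ?_
  rw [Finset.sum_const, nsmul_eq_mul]
  exact mul_le_mul_of_nonneg_right
    (Nat.cast_le.2 (Finset.card_le_card (Finset.erase_subset g F))) (by positivity)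

private theorem avgSum_left_fix {ι : Type*} {F : Finset ι} (hF : F.Nonempty) (w : ι → B) (f a : B)
    {R : ℝ} (hR : 0 ≤ R) (h : ∀ g ∈ F, ‖(f * w g - w g) * a‖ ≤ R) :
    ‖(f * avgSum F w - avgSum F w) * a‖ ≤ (F.card : ℝ) * R := by
  rw [avgSum, mul_smul_comm, Finset.mul_sum, ← smul_sub, ← Finset.sum_sub_distrib, smul_mul_assoc,
    Finset.sum_mul, norm_smul, Real.norm_of_nonneg (by positivity)]
  refine (mul_le_mul_of_nonneg_left ((norm_sum_le _ _).trans (Finset.sum_le_sum h))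
    (by positivity)).trans ?_
  rw [Finset.sum_const, nsmul_eq_mul, ← mul_assoc]
  exact mul_le_mul_of_nonneg_right (coef_mul_card_le hF) hR

private theorem avgSum_commute {ι : Type*} {F : Finset ι} (hF : F.Nonempty) (w : ι → B) (a : B)
    {R : ℝ} (hR : 0 ≤ R) (h : ∀ g ∈ F, ‖w g * a - a * w g‖ ≤ R) :
    ‖avgSum F w * a - a * avgSum F w‖ ≤ (F.card : ℝ) * R := by
  rw [avgSum, smul_mul_assoc, mul_smul_comm, Finset.sum_mul, Finset.mul_sum, ← smul_sub,
    ← Finset.sum_sub_distrib, norm_smul, Real.norm_of_nonneg (by positivity)]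
  refine (mul_le_mul_of_nonneg_left ((norm_sum_le _ _).trans (Finset.sum_le_sum h))
    (by positivity)).trans ?_
  rw [Finset.sum_const, nsmul_eq_mul, ← mul_assoc]
  exact mul_le_mul_of_nonneg_right (coef_mul_card_le hF) hR

private theorem avgSum_invariant {ι : Type*} [DecidableEq ι] {F E₀ : Finset ι} (hF : F.Nonempty)
    (hE : E₀ ⊆ F) (σ : ι → ι) (hinj : Set.InjOn σ E₀) (hσ : ∀ g ∈ E₀, σ g ∈ F) (w : ι → B)
    (θ : B ≃⋆ₐ[ℂ] B) (a : B) {δ R δ' t : ℝ} (hδ : 0 ≤ δ) (hδ' : 0 ≤ δ') (ht : 0 ≤ t)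
    (hmove : ∀ g ∈ E₀, ‖(θ (w g) - w (σ g)) * a‖ ≤ δ')
    (hd : ∀ g ∈ F, ‖star (w g) * w g‖ ≤ R)
    (ho : ∀ g ∈ F, ∀ h ∈ F, g ≠ h → ‖star (w g) * w h‖ ≤ δ)
    (hcard : ((F \ E₀).card : ℝ) * (R + F.card * δ) ≤ t ^ 2 * F.card) :
    ‖(θ (avgSum F w) - avgSum F w) * a‖ ≤ (F.card : ℝ) * δ' + 2 * t * ‖a‖ := by
  set c : ℝ := (Real.sqrt (F.card : ℝ))⁻¹
  have hc : 0 ≤ c := by positivity
  have hσF : E₀.image σ ⊆ F := fun h hh => by
    obtain ⟨g, hg, rfl⟩ := Finset.mem_image.1 hh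
    exact hσ g hg
  have e1 : θ (avgSum F w) - avgSum F w = c • ((∑ g ∈ E₀, (θ (w g) - w (σ g))) +
      (θ (∑ g ∈ F \ E₀, w g) - ∑ h ∈ F \ E₀.image σ, w h)) := by
    have a1 : ∑ g ∈ F, w g = (∑ g ∈ F \ E₀, w g) + ∑ g ∈ E₀, w g := (Finset.sum_sdiff hE).symm
    have a2 : ∑ g ∈ F, w g = (∑ h ∈ F \ E₀.image σ, w h) + ∑ g ∈ E₀, w (σ g) := by
      rw [← Finset.sum_image hinj, Finset.sum_sdiff hσF]
    have a3 : θ (avgSum F w) = c • θ (∑ g ∈ F, w g) := by
      rw [avgSum, ← Complex.coe_smul, map_smul, Complex.coe_smul]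
    rw [a3, avgSum, ← smul_sub]
    conv_lhs => rw [a1]; arg 2; arg 2; rw [← a1, a2]
    rw [map_add, map_sum θ _ E₀, Finset.sum_sub_distrib]
    exact congrArg _ (by abel)
  have hb : ∀ E ⊆ F, E.card = (F \ E₀).card → c * ‖∑ g ∈ E, w g‖ ≤ t := by
    intro E hEF hEc
    have h2 := norm_sum_le_of_orth E w hδ (fun g hg => hd g (hEF hg))
      fun g hg h hh => ho g (hEF hg) h (hEF hh)
    have hn : (0 : ℝ) < F.card := by exact_mod_cast hF.card_pos
    have hEn : (E.card : ℝ) ≤ F.card := Nat.cast_le.2 (Finset.card_le_card hEF)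
    have h3 : (c * ‖∑ g ∈ E, w g‖) ^ 2 ≤ t ^ 2 := by
      rw [mul_pow, sq c, coef_mul_self, inv_mul_le_iff₀ hn, mul_comm _ (t ^ 2)]
      refine h2.trans (le_trans ?_ hcard)
      rw [← hEc, mul_add, sq, mul_assoc]
      exact add_le_add le_rfl
        (mul_le_mul_of_nonneg_left (mul_le_mul_of_nonneg_right hEn hδ) (Nat.cast_nonneg _))
    exact (pow_le_pow_iff_left₀ (by positivity) ht two_ne_zero).1 h3
  have h1 : c * ‖(∑ g ∈ E₀, (θ (w g) - w (σ g))) * a‖ ≤ (F.card : ℝ) * δ' := by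
    rw [Finset.sum_mul]
    refine (mul_le_mul_of_nonneg_left ((norm_sum_le _ _).trans (Finset.sum_le_sum hmove)) hc).trans
      ?_
    rw [Finset.sum_const, nsmul_eq_mul, ← mul_assoc]
    refine mul_le_mul_of_nonneg_right (le_trans ?_ (coef_mul_card_le hF)) hδ'
    exact mul_le_mul_of_nonneg_left (Nat.cast_le.2 (Finset.card_le_card hE)) hc
  have h2 := hb _ Finset.sdiff_subset rfl
  have h3 := hb (F \ E₀.image σ) Finset.sdiff_subset (by
    rw [Finset.card_sdiff_of_subset hσF, Finset.card_sdiff_of_subset hE,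
      Finset.card_image_of_injOn hinj])
  have h4 : c * ‖θ (∑ g ∈ F \ E₀, w g) - ∑ h ∈ F \ E₀.image σ, w h‖ ≤ 2 * t := by
    refine (mul_le_mul_of_nonneg_left (norm_sub_le _ _) hc).trans ?_
    rw [norm_aut, mul_add]
    linarith
  rw [e1, smul_mul_assoc, add_mul, norm_smul, Real.norm_of_nonneg hc]
  refine (mul_le_mul_of_nonneg_left (norm_add_le _ _) hc).trans ?_
  rw [mul_add]
  refine add_le_add h1 ((mul_le_mul_of_nonneg_left (norm_mul_le _ _) hc).trans ?_)
  rw [← mul_assoc]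
  exact mul_le_mul_of_nonneg_right h4 (norm_nonneg a)

/-- The estimates for the average of the translates of `s`, tested on one element. -/
private theorem avg_estimates {G : Type*} [Group G] [DecidableEq G] (β : G →* (B ≃⋆ₐ[ℂ] B))
    {F : Finset G} (hF : F.Nonempty) (b e f : B) {s : B} {δ t : ℝ} (hδ : 0 ≤ δ) (ht0 : 0 ≤ t)
    (hnδ : (F.card : ℝ) * δ = t) (hs2 : ‖s‖ ≤ 2) (hf1 : ‖f‖ ≤ 1) (hfs : ‖f * s - s‖ ≤ δ)
    (horth : ∀ g ∈ F, ∀ h ∈ F, g ≠ h → ‖star s * β (g⁻¹ * h) s‖ ≤ δ)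
    (hsD : ∀ g ∈ F, ‖(star s * s - e) * β g⁻¹ b‖ ≤ δ ∧ ‖s * β g⁻¹ b - β g⁻¹ b * s‖ ≤ δ)
    (hmv : ∀ g ∈ F, ‖(β g f - f) * b‖ ≤ δ ∧ ‖(β g e - e) * b‖ ≤ δ) :
    ‖(star (avgSum F fun g => β g s) * avgSum F (fun g => β g s) - e) * b‖ ≤ 2 * δ + t * ‖b‖ ∧
      ‖(f * avgSum F (fun g => β g s) - avgSum F fun g => β g s) * b‖ ≤ t * (4 + ‖b‖) ∧
      ‖avgSum F (fun g => β g s) * b - b * avgSum F (fun g => β g s)‖ ≤ t ∧
      ∀ (k : G) (E₀ : Finset G) (σ : G → G), E₀ ⊆ F → Set.InjOn σ E₀ →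
        (∀ g ∈ E₀, σ g ∈ F ∧ ‖(β ((σ g)⁻¹ * (k * g)) s - s) * β (σ g)⁻¹ b‖ ≤ δ) →
        ((F \ E₀).card : ℝ) * (4 + t) ≤ t ^ 2 * F.card →
        ‖(β k (avgSum F fun g => β g s) - avgSum F fun g => β g s) * b‖ ≤ t + 2 * t * ‖b‖ := by
  set w : G → B := fun g => β g s with hw
  have hinv' : ∀ (g : G) (a : B), β g (β g⁻¹ a) = a := fun g a => by
    rw [← StarAlgEquiv.mul_apply, ← map_mul, mul_inv_cancel, map_one]; rfl
  have hwn : ∀ g, ‖w g‖ ≤ 2 := fun g => by rw [hw, norm_aut]; exact hs2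
  have hwd : ∀ g ∈ F, ‖star (w g) * w g‖ ≤ 4 := fun g _ => by
    rw [CStarRing.norm_star_mul_self]
    nlinarith [hwn g, norm_nonneg (w g)]
  have hworth : ∀ g ∈ F, ∀ h ∈ F, g ≠ h → ‖star (w g) * w h‖ ≤ δ := by
    intro g hg h hh hne
    have e1 : star (w g) * w h = β g (star s * β (g⁻¹ * h) s) := by
      simp only [hw]
      rw [map_mul (β g), map_star, ← StarAlgEquiv.mul_apply, ← map_mul, mul_inv_cancel_left]
    rw [e1, norm_aut]
    exact horth g hg h hh hne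
  have hcom : ∀ g ∈ F, ‖w g * b - b * w g‖ ≤ δ := by
    intro g hg
    have e2 : w g * b - b * w g = β g (s * β g⁻¹ b - β g⁻¹ b * s) := by
      simp only [hw, map_sub, map_mul (β g), hinv']
    rw [e2, norm_aut]
    exact (hsD g hg).2
  refine ⟨?_, ?_, ?_, fun k E₀ σ hE hinj hσ hcard => ?_⟩
  · refine (avgSum_gram hF w e b hδ (R := 2 * δ) (fun g hg => ?_) hworth).trans
      (by rw [← mul_assoc, hnδ])
    have e1 : (star (w g) * w g - e) * b =
        β g ((star s * s - e) * β g⁻¹ b) + (β g e - e) * b := by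
      rw [map_mul (β g), hinv', ← add_mul]
      congr 1
      simp only [hw, map_sub, map_mul (β g), map_star]
      abel
    rw [e1]
    refine (norm_add_le _ _).trans ?_
    rw [norm_aut]
    linarith [(hsD g hg).1, (hmv g hg).2]
  · refine (avgSum_left_fix hF w f b (R := δ * (4 + ‖b‖)) (by positivity)
      fun g hg => ?_).trans_eq (by rw [← mul_assoc, hnδ])
    have e1 : (f * w g - w g) * b = β g ((f * s - s) * β g⁻¹ b) - (β g f - f) * b * w g -
        (β g f - f) * (w g * b - b * w g) := by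
      rw [map_mul (β g), hinv', map_sub, map_mul (β g) f]
      simp only [hw]
      noncomm_ring
    rw [e1]
    refine (norm_sub_le _ _).trans ((add_le_add (norm_sub_le _ _) le_rfl).trans ?_)
    rw [norm_aut]
    have h1 : ‖(f * s - s) * β g⁻¹ b‖ ≤ δ * ‖b‖ :=
      (norm_mul_le _ _).trans (mul_le_mul hfs (by rw [norm_aut]) (norm_nonneg _) hδ)
    have h2 : ‖(β g f - f) * b * w g‖ ≤ δ * 2 :=
      (norm_mul_le _ _).trans (mul_le_mul (hmv g hg).1 (hwn g) (norm_nonneg _) hδ)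
    have h4 : ‖β g f - f‖ ≤ 2 := (norm_sub_le _ _).trans (by rw [norm_aut]; linarith)
    have h5 := (norm_mul_le (β g f - f) (w g * b - b * w g)).trans
      (mul_le_mul h4 (hcom g hg) (norm_nonneg _) zero_le_two)
    linarith
  · exact (avgSum_commute hF w b hδ hcom).trans_eq hnδ
  · refine (avgSum_invariant hF hE σ hinj (fun g hg => (hσ g hg).1) w (β k) b hδ hδ ht0 (R := 4)
      (fun g hg => ?_) hwd hworth (by rw [hnδ]; exact hcard)).trans_eq (by rw [hnδ])
    have e2 : (β k (w g) - w (σ g)) * b =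
        β (σ g) ((β ((σ g)⁻¹ * (k * g)) s - s) * β (σ g)⁻¹ b) := by
      rw [map_mul (β (σ g)), hinv', map_sub]
      congr 1
      simp only [hw]
      rw [← StarAlgEquiv.mul_apply, ← map_mul, ← StarAlgEquiv.mul_apply, ← map_mul,
        mul_inv_cancel_left]
    rw [e2, norm_aut]
    exact (hσ g hg).2

/-- Common test data for finitely many asymptotically fixing automorphisms. -/
private theorem exists_fix_data {ι : Type*} (I : Set B) (θ : ι → B ≃⋆ₐ[ℂ] B) (M : Finset (ι × B))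
    (hM : ∀ p ∈ M, AsympFixOn I (θ p.1) ∧ p.2 ∈ I) {ε : ℝ} (hε : 0 < ε) :
    ∃ (D : Finset B) (η : ℝ), 0 < η ∧ (∀ d ∈ D, d ∈ I) ∧ ∀ p ∈ M, ∀ z : B, ‖z‖ ≤ 2 →
      (∀ d ∈ D, ‖z * d - d * z‖ ≤ η) → ‖(θ p.1 z - z) * p.2‖ ≤ ε := by
  classical
  induction M using Finset.induction_on with
  | empty => exact ⟨∅, 1, one_pos, by simp, fun p hp => absurd hp (Finset.notMem_empty p)⟩
  | insert p M hp ih =>
    obtain ⟨D, η, hη, hD, h⟩ := ih fun k hk => hM k (Finset.mem_insert_of_mem hk)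
    obtain ⟨hfix, hpI⟩ := hM p (Finset.mem_insert_self p M)
    obtain ⟨D', η', hη', hD', h'⟩ := hfix p.2 hpI ε hε
    refine ⟨D ∪ D', min η η', lt_min hη hη', fun d hd => (Finset.mem_union.1 hd).elim (hD d) (hD' d),
      fun k hk z hz hza => ?_⟩
    rcases Finset.mem_insert.1 hk with rfl | hk
    · exact h' z hz fun a ha => (hza a (Finset.mem_union_right D ha)).trans (min_le_right _ _)
    · exact h k hk z hz fun a ha => (hza a (Finset.mem_union_left D' ha)).trans (min_le_left _ _)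

end Estimates

/-! ### Representatives of `F(A)` -/

section Lifts

variable (A) (ω : Ultrafilter ℕ)

/-- The bounded sequences with central class. -/
private def Seqs : StarSubalgebra ℂ (ℕ →ᵇ Unitization ℂ A) :=
  (Central (Unitization ℂ A) ω).comap (clsStar ω)

/-- The class in `F(A)`. -/
private def pr : Seqs A ω →⋆ₐ[ℂ] FA A ω :=
  (relProj (Unitization ℂ A) ω (inrSet A)).comp
    (((clsStar ω).comp (Seqs A ω).subtype).codRestrict _ fun f => f.2)

variable {A} {ω}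

omit [TopologicalSpace.SeparableSpace A] in
/-- Contractive representatives of strict contractions. -/
private theorem exists_lift {z : FA A ω} (hz : ‖z‖ < 1) :
    ∃ f : Seqs A ω, pr A ω f = z ∧ ∀ n, ‖(f : ℕ →ᵇ Unitization ℂ A) n‖ ≤ 1 := by
  obtain ⟨r, hr, hrn⟩ := quot_exists_norm_lt (annIdeal (Unitization ℂ A) ω (inrSet A)).toIdeal z
    (show (0 : ℝ) < (1 - ‖z‖) / 2 by linarith)
  obtain ⟨f, hf, hfn⟩ := quot_exists_norm_lt (NullSeq (Unitization ℂ A) ω)
    (r : Ultrapower (Unitization ℂ A) ω) (show (0 : ℝ) < (1 - ‖z‖) / 2 by linarith)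
  have hf' : cls ω f = (r : Ultrapower (Unitization ℂ A) ω) := hf
  refine ⟨⟨f, show cls ω f ∈ Central (Unitization ℂ A) ω from hf' ▸ r.2⟩, ?_, fun n => ?_⟩
  · have : (⟨cls ω f, hf' ▸ r.2⟩ : Central (Unitization ℂ A) ω) = r := Subtype.ext hf'
    show relProj _ _ _ _ = z
    refine (congrArg (relProj (Unitization ℂ A) ω (inrSet A)) ?_).trans hr
    exact this
  · have h : ‖(r : Ultrapower (Unitization ℂ A) ω)‖ = ‖r‖ := rfl
    have h2 : ‖r‖ < ‖z‖ + (1 - ‖z‖) / 2 := hrn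
    linarith [f.norm_coe_le_norm n]

omit [TopologicalSpace.SeparableSpace A] in
/-- The norm in `F(A)` bounds the products with elements of `A`. -/
private theorem eventually_mul_le (f : Seqs A ω) (a : A) {δ : ℝ} (hδ : 0 < δ) :
    ∀ᶠ n in (ω : Filter ℕ), ‖(f : ℕ →ᵇ Unitization ℂ A) n * (a : Unitization ℂ A)‖ ≤
      ‖pr A ω f‖ * ‖(a : Unitization ℂ A)‖ + δ := by
  set b : Unitization ℂ A := (a : Unitization ℂ A)
  obtain ⟨r, hr, hrn⟩ := quot_exists_norm_lt (annIdeal (Unitization ℂ A) ω (inrSet A)).toIdeal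
    (pr A ω f) (show (0 : ℝ) < δ / (2 * (‖b‖ + 1)) by positivity)
  have hann : (⟨cls ω (f : ℕ →ᵇ Unitization ℂ A), f.2⟩ : Central (Unitization ℂ A) ω) - r ∈
      (annIdeal (Unitization ℂ A) ω (inrSet A)).toIdeal := by
    rw [← relProj_eq_zero, map_sub, sub_eq_zero]
    exact hr.symm
  have h0 := ((mem_annIdeal _ ω _).1 hann b ⟨a, rfl⟩).1
  rw [show (((⟨cls ω (f : ℕ →ᵇ Unitization ℂ A), f.2⟩ : Central (Unitization ℂ A) ω) - r :
      Central (Unitization ℂ A) ω) : Ultrapower (Unitization ℂ A) ω) =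
      cls ω (f : ℕ →ᵇ Unitization ℂ A) - (r : Ultrapower (Unitization ℂ A) ω) from rfl,
    sub_mul, sub_eq_zero, ← map_mul] at h0
  have hlim : limNorm ω ((f : ℕ →ᵇ Unitization ℂ A) * BoundedContinuousFunction.const ℕ b) <
      ‖pr A ω f‖ * ‖b‖ + δ := by
    rw [← norm_cls, h0]
    refine (norm_mul_le _ _).trans_lt ?_
    have h1 : ‖constSeq ω b‖ ≤ ‖b‖ :=
      (quot_norm_mk_le (NullSeq (Unitization ℂ A) ω) _).trans
        (BoundedContinuousFunction.norm_const_le b)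
    have h2 : ‖(r : Ultrapower (Unitization ℂ A) ω)‖ ≤ ‖pr A ω f‖ + δ / (2 * (‖b‖ + 1)) := hrn.le
    refine lt_of_le_of_lt (mul_le_mul h2 h1 (norm_nonneg _) (by positivity)) ?_
    rw [add_mul]
    have h3 : δ / (2 * (‖b‖ + 1)) * ‖b‖ < δ := by
      rw [div_mul_eq_mul_div, div_lt_iff₀ (by positivity)]
      nlinarith [norm_nonneg b]
    linarith
  filter_upwards [(tendsto_limNorm ω _).eventually (eventually_lt_nhds hlim)] with n hn
  exact le_of_lt hn

omit [TopologicalSpace.SeparableSpace A] in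
/-- Representatives almost commute with every element. -/
private theorem eventually_comm_le (f : Seqs A ω) (b : Unitization ℂ A) {δ : ℝ} (hδ : 0 < δ) :
    ∀ᶠ n in (ω : Filter ℕ), ‖(f : ℕ →ᵇ Unitization ℂ A) n * b -
      b * (f : ℕ →ᵇ Unitization ℂ A) n‖ ≤ δ := by
  have h := tendsto_of_commute_cls ω (f := (f : ℕ →ᵇ Unitization ℂ A))
    (g := BoundedContinuousFunction.const ℕ b) ((mem_central ω).1 f.2 b).symm
  exact (h.eventually (eventually_lt_nhds hδ)).mono fun n hn => le_of_lt hn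

/-- The norm of a difference with a translate bounds the products with elements of `A`. -/
private theorem eventually_act_le {G : Type} [Group G] [Countable G]
    (hω : (ω : Filter ℕ) ≤ cofinite) (α : G →* (A ≃⋆ₐ[ℂ] A)) (g : G) (f : Seqs A ω) (a : A) {δ : ℝ}
    (hδ : 0 < δ) :
    ∀ᶠ n in (ω : Filter ℕ), ‖(extAction α g ((f : ℕ →ᵇ Unitization ℂ A) n) -
      (f : ℕ →ᵇ Unitization ℂ A) n) * (a : Unitization ℂ A)‖ ≤
      ‖(sysFA hω α).act g (pr A ω f) - pr A ω f‖ * ‖(a : Unitization ℂ A)‖ + δ := by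
  let f' : Seqs A ω := ⟨Vale.P095.bmap (StarAlgHomClass.toStarAlgHom (extAction α g)) f,
    Vale.P095.actU_mem_central ω (extAction α) g f.2⟩
  have h : pr A ω f' = (sysFA hω α).act g (pr A ω f) :=
    (relAct_proj (extAction α) (inv_inrSet α) g
      (⟨cls ω (f : ℕ →ᵇ Unitization ℂ A), f.2⟩ : Central (Unitization ℂ A) ω)).symm
  have := eventually_mul_le (f' - f) a hδ
  rw [map_sub, h] at this
  exact this

omit [TopologicalSpace.SeparableSpace A] in
/-- Finitely many unit pairs lie inside a finite set. -/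
private theorem finite_pairs (D : Finset (Unitization ℂ A)) :
    {p : UnitPair A | (inr p.e : Unitization ℂ A) ∈ D ∧ (inr p.c : Unitization ℂ A) ∈ D}.Finite := by
  refine ((D.finite_toSet.prod D.finite_toSet).preimage
    (f := fun p : UnitPair A => ((inr p.e : Unitization ℂ A), (inr p.c : Unitization ℂ A))) ?_).subset
    fun p hp => hp
  rintro ⟨e, c, h1, h2, h3⟩ - ⟨e', c', h1', h2', h3'⟩ - h
  obtain ⟨he, hc⟩ := Prod.mk.injEq _ _ _ _ ▸ h
  obtain rfl := Unitization.inr_injective he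
  obtain rfl := Unitization.inr_injective hc
  rfl

omit [TopologicalSpace.SeparableSpace A] in
/-- The asymptotically fixing elements form a subgroup. -/
private theorem exists_fix_subgroup {G : Type} [Group G] (α : G →* (A ≃⋆ₐ[ℂ] A)) :
    ∃ N : Subgroup G, ∀ g, g ∈ N ↔ AsympFixOn (inrSet A) (extAction α g) := by
  classical
  set θG : G → Unitization ℂ A ≃⋆ₐ[ℂ] Unitization ℂ A := fun g => extAction α g with hθG
  have hθI : ∀ (g : G), ∀ a ∈ inrSet A, θG g a ∈ inrSet A := inv_inrSet α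
  have hinv' : ∀ (g : G) (a : Unitization ℂ A), θG g (θG g⁻¹ a) = a := fun g a => by
    simp only [hθG]
    rw [← StarAlgEquiv.mul_apply, ← map_mul, mul_inv_cancel, map_one]; rfl
  have hinvI : ∀ (g : G) (a : Unitization ℂ A), a ∈ inrSet A → θG g⁻¹ a ∈ inrSet A :=
    fun g a ha => hθI _ a ha
  let N : Subgroup G :=
    { carrier := {g | AsympFixOn (inrSet A) (θG g)}
      one_mem' := fun a ha t ht => ⟨∅, 1, one_pos, by simp, fun z _ _ => by
        have e : θG 1 z = z := by simp [hθG]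
        rw [e, sub_self, zero_mul, norm_zero]
        exact ht.le⟩
      mul_mem' := fun {g h} hg hh a ha t ht => by
        obtain ⟨D₁, η₁, hη₁, hD₁, h₁⟩ := hg a ha (t / 2) (half_pos ht)
        obtain ⟨D₂, η₂, hη₂, hD₂, h₂⟩ := hh _ (hinvI g a ha) (t / 2) (half_pos ht)
        refine ⟨D₁ ∪ D₂, min η₁ η₂, lt_min hη₁ hη₂,
          fun d hd => (Finset.mem_union.1 hd).elim (hD₁ d) (hD₂ d), fun z hz hza => ?_⟩
        have e1 := h₁ z hz fun d hd =>
          (hza d (Finset.mem_union_left D₂ hd)).trans (min_le_left _ _)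
        have e2 := h₂ z hz fun d hd =>
          (hza d (Finset.mem_union_right D₁ hd)).trans (min_le_right _ _)
        have e : (θG (g * h) z - z) * a =
            θG g ((θG h z - z) * θG g⁻¹ a) + (θG g z - z) * a := by
          have hgh : θG (g * h) z = θG g (θG h z) := by simp [hθG]
          rw [map_mul (θG g), map_sub, hinv', hgh, ← add_mul]
          congr 1
          abel
        rw [e]
        refine (norm_add_le _ _).trans ?_
        rw [norm_aut]
        linarith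
      inv_mem' := fun {g} hg a ha t ht => by
        obtain ⟨D₁, η₁, hη₁, hD₁, h₁⟩ := hg _ (hθI g a ha) t ht
        refine ⟨D₁, η₁, hη₁, hD₁, fun z hz hza => ?_⟩
        calc ‖(θG g⁻¹ z - z) * a‖ = ‖θG g ((θG g⁻¹ z - z) * a)‖ := (norm_aut _ _).symm
          _ = ‖(θG g z - z) * θG g a‖ := by
            rw [map_mul, map_sub, hinv', ← norm_neg, ← neg_mul, neg_sub]
          _ ≤ t := h₁ z hz hza }
  exact ⟨N, fun g => Iff.rfl⟩

/-- Scaled representatives of the pieces. -/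
private theorem exists_scaled_reps {G : Type} [Group G] [Countable G]
    (hω : (ω : Filter ℕ) ≤ cofinite) (α : G →* (A ≃⋆ₐ[ℂ] A)) {L : ℕ} {x : FA A ω}
    {q : Fin L → FA A ω} (W : Finset G) {ν κ : ℝ} (hν : 0 < ν) (hν4 : ν ≤ 1 / 4) (hκ : 0 < κ)
    (hx : ‖x‖ ≤ 1) (hxx : x * x = 0) (hinv : ∀ g ∈ W, ‖(sysFA hω α).act g x - x‖ ≤ ν)
    (hq : ∀ p, (∃ y, q p = star y * y) ∧ ‖q p‖ ≤ 1)
    (horth : ∀ p p', p ≠ p' → q p * q p' = 0) (hfq : ∀ p, ‖x * star x * q p - q p‖ ≤ ν)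
    (htr : ∀ t : FA A ω →ₗ[ℝ] ℝ, Vale.P095.Tracial.IsTrace t →
      t (1 - (star x * x + x * star x)) ≤ ν * t 1 ∧ ∀ p, κ * t 1 ≤ t (q p)) :
    ∃ (X E : Seqs A ω) (Q : Fin L → Seqs A ω),
      (∀ k, ‖X.1 k‖ ≤ 1) ∧ (∀ k, IsPos (E.1 k) ∧ ‖E.1 k‖ ≤ 1) ∧
      (∀ p k, IsPos ((Q p).1 k) ∧ ‖(Q p).1 k‖ ≤ 1) ∧
      ‖pr A ω (X * X)‖ ≤ ν ∧ ‖pr A ω (E - (1 - (star X * X + X * star X)))‖ ≤ ν ∧
      (∀ p p', p ≠ p' → ‖pr A ω (Q p * Q p')‖ ≤ ν) ∧
      (∀ p, ‖pr A ω (X * star X * Q p - Q p)‖ ≤ 2 * ν) ∧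
      (∀ g ∈ W, ‖(sysFA hω α).act g (pr A ω X) - pr A ω X‖ ≤ ν ∧
        ‖(sysFA hω α).act g (pr A ω (X * star X)) - pr A ω (X * star X)‖ ≤ 4 * ν ∧
        ‖(sysFA hω α).act g (pr A ω E) - pr A ω E‖ ≤ 4 * ν) ∧
      ∀ t : FA A ω →ₗ[ℝ] ℝ, Vale.P095.Tracial.IsTrace t → t (pr A ω E) ≤ ν * t 1 ∧
        ∀ p, κ / 2 * t 1 ≤ t (pr A ω (Q p)) := by
  obtain ⟨y, hy, hye⟩ := exists_defect_sqrt hx hxx
  choose y' hy' hq1 using fun p => (show ∃ y, q p = star y * y ∧ ‖q p‖ ≤ 1 from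
    let ⟨⟨y, hy⟩, h⟩ := hq p; ⟨y, hy, h⟩)
  set c : ℝ := 1 - ν / 2 with hcdef
  have hc0 : 0 < c := by linarith
  have hc1 : c < 1 := by linarith
  have hcν : 1 - c * c ≤ ν := by nlinarith
  have hcc : 1 / 2 ≤ c * c := by nlinarith
  have hsc : ∀ z : FA A ω, ‖z‖ ≤ 1 → ‖(c : ℂ) • z‖ < 1 := fun z hz => by
    rw [norm_smul, Complex.norm_real, Real.norm_of_nonneg hc0.le]
    exact lt_of_le_of_lt (mul_le_of_le_one_right hc0.le hz) hc1
  obtain ⟨X, hX, hXn⟩ := exists_lift (hsc x hx)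
  obtain ⟨Y, hY, hYn⟩ := exists_lift (hsc y hy)
  have hy'1 : ∀ p, ‖y' p‖ ≤ 1 := fun p => by
    have h := hq1 p
    rw [hy' p, CStarRing.norm_star_mul_self] at h
    nlinarith [norm_nonneg (y' p)]
  choose Z hZ hZn using fun p => exists_lift (hsc (y' p) (hy'1 p))
  let E : Seqs A ω := star Y * Y
  let f : Seqs A ω := X * star X
  let Q : Fin L → Seqs A ω := fun p => star (Z p) * Z p
  have hcsmul : ∀ z w : FA A ω, (c : ℂ) • z * ((c : ℂ) • w) = (c * c : ℝ) • (z * w) := fun z w => by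
    rw [smul_mul_smul_comm, ← Complex.ofReal_mul, Complex.coe_smul]
  have hstar : ∀ z : FA A ω, star ((c : ℂ) • z) = (c : ℂ) • star z := fun z => by
    rw [star_smul, Complex.star_def, Complex.conj_ofReal]
  have hprE : pr A ω E = (c * c : ℝ) • (1 - (star x * x + x * star x)) := by
    rw [map_mul, map_star, hY, hstar, hcsmul, hye]
  have hprf : pr A ω f = (c * c : ℝ) • (x * star x) := by
    rw [map_mul, map_star, hX, hstar, hcsmul]
  have hprQ : ∀ p, pr A ω (Q p) = (c * c : ℝ) • q p := fun p => by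
    rw [map_mul, map_star, hZ, hstar, hcsmul, hy' p]
  have hcc1 : c * c ≤ 1 := by nlinarith
  have hnsmul : ∀ (r : ℝ) (z : FA A ω), 0 ≤ r → r ≤ 1 → ‖r • z‖ ≤ ‖z‖ := fun r z h0 h1 => by
    rw [norm_smul, Real.norm_of_nonneg h0]
    exact mul_le_of_le_one_left (norm_nonneg _) h1
  -- the classes of the test expressions
  have hXX : ‖pr A ω (X * X)‖ ≤ ν := by
    rw [map_mul, hX, hcsmul, hxx, smul_zero, norm_zero]
    exact hν.le
  have hdef : ‖pr A ω (E - (1 - (star X * X + X * star X)))‖ ≤ ν := by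
    have e : pr A ω (E - (1 - (star X * X + X * star X))) = (c * c - 1 : ℝ) • (1 : FA A ω) := by
      rw [map_sub, hprE, map_sub, map_one, map_add, map_mul, map_mul, map_star, hX, hstar, hcsmul,
        hcsmul, smul_sub, smul_add, sub_smul, one_smul]
      abel
    rw [e, norm_smul, Real.norm_of_nonpos (by linarith)]
    have h1 : ‖(1 : FA A ω)‖ ≤ 1 := by
      have h := CStarRing.norm_star_mul_self (x := (1 : FA A ω))
      rw [star_one, one_mul] at h
      nlinarith [norm_nonneg (1 : FA A ω)]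
    nlinarith [norm_nonneg (1 : FA A ω)]
  have hqq : ∀ p p', p ≠ p' → ‖pr A ω (Q p * Q p')‖ ≤ ν := fun p p' h => by
    rw [map_mul, hprQ, hprQ, smul_mul_smul_comm, horth p p' h, smul_zero, norm_zero]
    exact hν.le
  have hfQ : ∀ p, ‖pr A ω (f * Q p - Q p)‖ ≤ 2 * ν := fun p => by
    have e : pr A ω (f * Q p - Q p) = (c * c * (c * c) : ℝ) • (x * star x * q p - q p) +
        (c * c * (c * c) - c * c : ℝ) • q p := by
      rw [map_sub, map_mul, hprQ, hprf, smul_mul_smul_comm, smul_sub, sub_smul]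
      abel
    rw [e]
    refine (norm_add_le _ _).trans ?_
    have h1 := (hnsmul (c * c * (c * c)) (x * star x * q p - q p) (by positivity)
      (by nlinarith)).trans (hfq p)
    have h2 : ‖(c * c * (c * c) - c * c : ℝ) • q p‖ ≤ ν := by
      rw [norm_smul, Real.norm_of_nonpos (by nlinarith)]
      calc -(c * c * (c * c) - c * c) * ‖q p‖ ≤ (1 - c * c) * 1 :=
            mul_le_mul (by nlinarith) (hq1 p) (norm_nonneg _) (by linarith)
        _ ≤ ν := by linarith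
    linarith
  have hact : ∀ g ∈ W, ‖(sysFA hω α).act g (pr A ω X) - pr A ω X‖ ≤ ν ∧
      ‖(sysFA hω α).act g (pr A ω f) - pr A ω f‖ ≤ 4 * ν ∧
      ‖(sysFA hω α).act g (pr A ω E) - pr A ω E‖ ≤ 4 * ν := fun g hg => by
    have h0 := hinv g hg
    obtain ⟨h1, h2⟩ := norm_star_mul_self_sub ((sysFA hω α).act g) hx h0
    have hsm : ∀ z : FA A ω, (sysFA hω α).act g ((c * c : ℝ) • z) =
        (c * c : ℝ) • (sysFA hω α).act g z := fun z => by
      rw [← Complex.coe_smul, map_smul, Complex.coe_smul]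
    refine ⟨?_, ?_, ?_⟩
    · rw [hX, map_smul, ← smul_sub, norm_smul, Complex.norm_real, Real.norm_of_nonneg hc0.le]
      exact (mul_le_of_le_one_left (norm_nonneg _) hc1.le).trans h0
    · rw [hprf, hsm, ← smul_sub]
      exact (hnsmul _ _ (by positivity) hcc1).trans (h2.trans (by linarith))
    · rw [hprE, hsm, ← smul_sub, map_sub, map_one, map_add,
        show 1 - ((sysFA hω α).act g (star x * x) + (sysFA hω α).act g (x * star x)) -
            (1 - (star x * x + x * star x)) =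
          -(((sysFA hω α).act g (star x * x) - star x * x) +
            ((sysFA hω α).act g (x * star x) - x * star x)) by abel]
      refine (hnsmul _ _ (by positivity) hcc1).trans ?_
      rw [norm_neg]
      exact (norm_add_le _ _).trans (by linarith)
  have hsq1 : ∀ z : Unitization ℂ A, ‖z‖ ≤ 1 → ‖star z * z‖ ≤ 1 := fun z hz => by
    rw [CStarRing.norm_star_mul_self]
    exact mul_le_one₀ hz (norm_nonneg _) hz
  refine ⟨X, E, Q, hXn, fun k => ⟨⟨Y.1 k, rfl⟩, hsq1 _ (hYn k)⟩,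
    fun p k => ⟨⟨(Z p).1 k, rfl⟩, hsq1 _ (hZn p k)⟩, hXX, hdef, hqq, hfQ, hact, fun t ht => ?_⟩
  have hcsm : ∀ (r : ℝ) (z : FA A ω), t (r • z) = r * t z :=
    fun r z => by rw [map_smul, smul_eq_mul]
  have h0 : 0 ≤ t 1 := by
    have := ht.nonneg 1
    rwa [star_one, one_mul] at this
  refine ⟨?_, fun p => ?_⟩
  · rw [hprE, hcsm]
    nlinarith [mul_le_mul_of_nonneg_left (htr t ht).1 (mul_self_nonneg c),
      mul_le_mul_of_nonneg_right hcc1 (mul_nonneg hν.le h0)]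
  · rw [hprQ, hcsm]
    nlinarith [mul_le_mul_of_nonneg_left ((htr t ht).2 p) (mul_self_nonneg c),
      mul_le_mul_of_nonneg_right hcc (mul_nonneg hκ.le h0)]

omit [TopologicalSpace.SeparableSpace A] in
/-- Trace estimates in `F(A)` give eventual estimates in all weights. -/
private theorem eventually_weights {L : ℕ} (E : Seqs A ω) (Q : Fin L → Seqs A ω)
    (D' : Finset (Unitization ℂ A)) {η κ : ℝ} (hη : 0 < η)
    (h : ∀ t : FA A ω →ₗ[ℝ] ℝ, Vale.P095.Tracial.IsTrace t → t (pr A ω E) ≤ η * t 1 ∧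
      ∀ p, κ * t 1 ≤ t (pr A ω (Q p))) :
    ∀ᶠ k in (ω : Filter ℕ), SmallW D' η (E.1 k) ∧ ∀ p, LargeW D' κ η ((Q p).1 k) := by
  let P := {u : UnitPair A | (inr u.e : Unitization ℂ A) ∈ D' ∧ (inr u.c : Unitization ℂ A) ∈ D'}
  have h1 : ∀ᶠ k in (ω : Filter ℕ), ∀ u ∈ P, ∀ τ : TraceWeight A, ∀ hu : u.Normed τ,
      u.val τ hu (E.1 k) ≤ η * (‖u.bi‖ * ‖u.bi‖) + η := by
    refine (Filter.eventually_all_finite (finite_pairs D')).2 fun u _ => ?_
    exact eventually_val_le ω u hη.le (x := ⟨cls ω E.1, E.2⟩) (fun t ht => (h t ht).1) rfl hη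
  have h2 : ∀ p, ∀ᶠ k in (ω : Filter ℕ), ∀ u ∈ P, ∀ τ : TraceWeight A, ∀ hu : u.Normed τ,
      u.val τ hu (((κ : ℂ) • (1 : Seqs A ω) - Q p : Seqs A ω).1 k) ≤
        0 * (‖u.bi‖ * ‖u.bi‖) + η := fun p => by
    refine (Filter.eventually_all_finite (finite_pairs D')).2 fun u _ => ?_
    refine eventually_val_le ω u le_rfl (x := ⟨_, ((κ : ℂ) • (1 : Seqs A ω) - Q p).2⟩)
      (fun t ht => ?_) rfl hη
    have e : pr A ω ((κ : ℂ) • (1 : Seqs A ω) - Q p) = κ • (1 : FA A ω) - pr A ω (Q p) := by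
      rw [map_sub (pr A ω), map_smul, map_one, Complex.coe_smul]
    show t (pr A ω ((κ : ℂ) • (1 : Seqs A ω) - Q p)) ≤ 0 * t 1
    rw [e, map_sub, map_smul, smul_eq_mul, zero_mul, sub_nonpos]
    exact (h t ht).2 p
  filter_upwards [h1, Filter.eventually_all.2 h2] with k hk1 hk2
  refine ⟨fun u hue huc τ hu => ?_, fun p u hue huc τ hu => ?_⟩
  · exact (hk1 u ⟨hue, huc⟩ τ hu).trans_eq (by ring)
  · have h := hk2 p u ⟨hue, huc⟩ τ hu
    rw [show ((κ : ℂ) • (1 : Seqs A ω) - Q p : Seqs A ω).1 k =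
        κ • (1 : Unitization ℂ A) - (Q p).1 k by
      rw [← Complex.coe_smul]; rfl, UnitPair.val_sub, UnitPair.val_smul] at h
    nlinarith [mul_nonneg hη.le (mul_self_nonneg ‖u.bi‖)]

/-- The elements of the unitization to which the local property (SI) is applied. -/
private theorem exists_data {G : Type} [Group G] [Countable G] (hω : (ω : Filter ℕ) ≤ cofinite)
    (α : G →* (A ≃⋆ₐ[ℂ] A)) (hM : InvSquareZeroSys (sysFA hω α)) (L : ℕ) :
    ∃ κ : ℝ, 0 < κ ∧ ∀ (D : Finset A) (D' : Finset (Unitization ℂ A)) (W : Finset G) (μ η : ℝ),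
      (∀ b ∈ D', b ∈ inrSet A) → 0 < μ → μ ≤ η → ∃ (x e : Unitization ℂ A)
        (q : Fin L → Unitization ℂ A), ‖x‖ ≤ 1 ∧ IsPos e ∧ ‖e‖ ≤ 1 ∧
        (∀ p, IsPos (q p) ∧ ‖q p‖ ≤ 1) ∧
        (∀ a ∈ D, ‖x * x * (a : Unitization ℂ A)‖ ≤ μ ∧
          ‖(e - (1 - (star x * x + x * star x))) * (a : Unitization ℂ A)‖ ≤ μ ∧
          ‖x * (a : Unitization ℂ A) - (a : Unitization ℂ A) * x‖ ≤ μ ∧
          ∀ g ∈ W, ‖(extAction α g x - x) * (a : Unitization ℂ A)‖ ≤ μ ∧
            ‖(extAction α g (x * star x) - x * star x) * (a : Unitization ℂ A)‖ ≤ μ ∧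
            ‖(extAction α g e - e) * (a : Unitization ℂ A)‖ ≤ μ) ∧
        (∀ b ∈ D', (‖e * b - b * e‖ ≤ μ ∧ ‖x * star x * b - b * (x * star x)‖ ≤ μ ∧
            ∀ p, ‖q p * b - b * q p‖ ≤ μ) ∧
          (∀ p p', p ≠ p' → ‖q p * q p' * b‖ ≤ μ) ∧
          ∀ p, ‖(x * star x * q p - q p) * b‖ ≤ μ) ∧
        SmallW D' η e ∧ ∀ p, LargeW D' κ η (q p) := by
  classical
  obtain ⟨κ, hκ, hpieces⟩ := exists_pieces_sys (sysFA hω α) hM L
  refine ⟨κ / 2, half_pos hκ, fun D D' S μ η hD'I hμ hμη => ?_⟩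
  set K' : ℝ := 1 + (∑ a ∈ D, ‖(a : Unitization ℂ A)‖) + ∑ b ∈ D', ‖b‖ with hK'def
  have h0D : 0 ≤ ∑ a ∈ D, ‖(a : Unitization ℂ A)‖ := Finset.sum_nonneg fun a _ => norm_nonneg _
  have h0D' : 0 ≤ ∑ b ∈ D', ‖b‖ := Finset.sum_nonneg fun a _ => norm_nonneg _
  have hDK : ∀ a ∈ D, ‖(a : Unitization ℂ A)‖ ≤ K' := fun a ha => by
    have h := Finset.single_le_sum (f := fun a : A => ‖(a : Unitization ℂ A)‖)
      (fun a _ => norm_nonneg _) ha
    linarith
  have hK' : ∀ a ∈ D', ‖a‖ ≤ K' := fun a ha => by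
    have h := Finset.single_le_sum (f := fun a : Unitization ℂ A => ‖a‖)
      (fun a _ => norm_nonneg _) ha
    linarith
  set ν : ℝ := min (μ / (8 * K')) (1 / 4) with hνdef
  have hν : 0 < ν := lt_min (div_pos hμ (by linarith)) (by norm_num)
  have hν4 : ν ≤ 1 / 4 := min_le_right _ _
  have hνK : 8 * (ν * K') ≤ μ := by
    have h : ν ≤ μ / (8 * K') := min_le_left _ _
    rw [le_div_iff₀ (by linarith)] at h
    linarith
  have hνμ : ν ≤ μ := by nlinarith
  obtain ⟨x, q, hx, hxx, hinv, hq, horth, hfq, htr⟩ := hpieces S ν hν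
  obtain ⟨X, E, Q, hXn, hEn, hQn, hXX, hdef, hqq, hfQ, hact, htr'⟩ :=
    exists_scaled_reps hω α S hν hν4 hκ hx hxx hinv hq horth hfq htr
  -- estimates on representatives
  have hsmall : ∀ (W : Seqs A ω) (a : A), ‖pr A ω W‖ ≤ 4 * ν → ‖(a : Unitization ℂ A)‖ ≤ K' →
      ∀ᶠ k in (ω : Filter ℕ), ‖(W : ℕ →ᵇ Unitization ℂ A) k * (a : Unitization ℂ A)‖ ≤ μ :=
    fun W a h1 h2 => (eventually_mul_le W a (half_pos hμ)).mono fun k hk => hk.trans (by
      nlinarith [mul_le_mul h1 h2 (norm_nonneg _) (by linarith)])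
  have hmove : ∀ (g : G) (W : Seqs A ω) (a : A),
      ‖(sysFA hω α).act g (pr A ω W) - pr A ω W‖ ≤ 4 * ν → ‖(a : Unitization ℂ A)‖ ≤ K' →
      ∀ᶠ k in (ω : Filter ℕ), ‖(extAction α g ((W : ℕ →ᵇ Unitization ℂ A) k) -
        (W : ℕ →ᵇ Unitization ℂ A) k) * (a : Unitization ℂ A)‖ ≤ μ :=
    fun g W a h1 h2 => (eventually_act_le hω α g W a (half_pos hμ)).mono fun k hk => hk.trans (by
      nlinarith [mul_le_mul h1 h2 (norm_nonneg _) (by linarith)])
  have evD : ∀ a ∈ D, ∀ᶠ k in (ω : Filter ℕ),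
      ‖(X * X : Seqs A ω).1 k * (a : Unitization ℂ A)‖ ≤ μ ∧
      ‖(E - (1 - (star X * X + X * star X)) : Seqs A ω).1 k * (a : Unitization ℂ A)‖ ≤ μ ∧
      ‖X.1 k * (a : Unitization ℂ A) - (a : Unitization ℂ A) * X.1 k‖ ≤ μ ∧
      ∀ g ∈ S, ‖(extAction α g (X.1 k) - X.1 k) * (a : Unitization ℂ A)‖ ≤ μ ∧
        ‖(extAction α g ((X * star X).1 k) - (X * star X).1 k) * (a : Unitization ℂ A)‖ ≤ μ ∧
        ‖(extAction α g (E.1 k) - E.1 k) * (a : Unitization ℂ A)‖ ≤ μ := fun a ha => by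
    simp only [Filter.eventually_and, Filter.eventually_all_finset]
    exact ⟨hsmall _ a (hXX.trans (by linarith)) (hDK a ha),
      hsmall _ a (hdef.trans (by linarith)) (hDK a ha), eventually_comm_le X _ hμ,
      fun g hg => ⟨hmove g X a ((hact g hg).1.trans (by linarith)) (hDK a ha),
        hmove g (X * star X) a (hact g hg).2.1 (hDK a ha), hmove g E a (hact g hg).2.2 (hDK a ha)⟩⟩
  have evD' : ∀ b ∈ D', ∀ᶠ k in (ω : Filter ℕ), (‖E.1 k * b - b * E.1 k‖ ≤ μ ∧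
      ‖(X * star X).1 k * b - b * (X * star X).1 k‖ ≤ μ ∧ ∀ p, ‖(Q p).1 k * b - b * (Q p).1 k‖ ≤ μ) ∧
      (∀ p p', p ≠ p' → ‖(Q p).1 k * (Q p').1 k * b‖ ≤ μ) ∧
      ∀ p, ‖((X * star X).1 k * (Q p).1 k - (Q p).1 k) * b‖ ≤ μ := fun b hb => by
    obtain ⟨a, rfl⟩ := hD'I b hb
    simp only [Filter.eventually_and, Filter.eventually_all]
    exact ⟨⟨eventually_comm_le E _ hμ, eventually_comm_le (X * star X) _ hμ,
        fun p => eventually_comm_le (Q p) _ hμ⟩,
      fun p p' h => hsmall (Q p * Q p') a ((hqq p p' h).trans (by linarith)) (hK' _ hb),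
      fun p => hsmall (X * star X * Q p - Q p) a ((hfQ p).trans (by linarith)) (hK' _ hb)⟩
  obtain ⟨k, hkD, hkD', hkS⟩ := (((Filter.eventually_all_finset D).2 evD).and
    (((Filter.eventually_all_finset D').2 evD').and
      (eventually_weights E Q D' (hμ.trans_le hμη) fun t ht =>
        ⟨(htr' t ht).1.trans (mul_le_mul_of_nonneg_right (hνμ.trans hμη) (by have := ht.nonneg 1; rwa [star_one, one_mul] at this)),
          (htr' t ht).2⟩))).exists
  exact ⟨X.1 k, E.1 k, fun p => (Q p).1 k, hXn k, (hEn k).1, (hEn k).2, fun p => hQn p k,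
    hkD, hkD', hkS⟩

end Lifts

theorem approx_relations_of_compares [Nontrivial A] {G : Type} [Group G] [Countable G]
    {ω : Ultrafilter ℕ} (hω : (ω : Filter ℕ) ≤ cofinite) (hs : IsTopSimple A) (hA : HasCPAP A)
    (hcmp : ComparesOn (inrSet A) SmallW LargeW) (hG : IsFolner G) (α : G →* (A ≃⋆ₐ[ℂ] A))
    (hM : InvSquareZeroSys (sysFA hω α)) (D : Finset A) (S : Finset G) {ε : ℝ} (hε : 0 < ε) :
    ∃ x v : Unitization ℂ A, ‖x‖ ≤ 1 ∧ ‖v‖ ≤ 3 ∧ ∀ a ∈ D,
      ‖x * x * (a : Unitization ℂ A)‖ ≤ ε ∧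
      ‖(star v * v - (1 - (star x * x + x * star x))) * (a : Unitization ℂ A)‖ ≤ ε ∧
      ‖(x * star x * v - v) * (a : Unitization ℂ A)‖ ≤ ε ∧
      ‖x * (a : Unitization ℂ A) - (a : Unitization ℂ A) * x‖ ≤ ε ∧
      ‖v * (a : Unitization ℂ A) - (a : Unitization ℂ A) * v‖ ≤ ε ∧
      ∀ g ∈ S, ‖(extAction α g x - x) * (a : Unitization ℂ A)‖ ≤ ε ∧
        ‖(extAction α g v - v) * (a : Unitization ℂ A)‖ ≤ ε := by
  classical
  have hI : IsSimpleIdeal (inrSet A) := isSimpleIdeal_inrSet hs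
  set θG : G → Unitization ℂ A ≃⋆ₐ[ℂ] Unitization ℂ A := fun g => extAction α g with hθG
  have hθI : ∀ (g : G), ∀ a ∈ inrSet A, θG g a ∈ inrSet A := fun g a ha => (inrSet_aut α g a).1 ha
  have hinvI : ∀ (g : G) (a : Unitization ℂ A), a ∈ inrSet A → θG g⁻¹ a ∈ inrSet A :=
    fun g a ha => hθI _ a ha
  -- the subgroup of asymptotically fixing elements
  obtain ⟨N, hNmem⟩ := exists_fix_subgroup α
  -- constants
  set Db : Finset (Unitization ℂ A) := D.image (fun a : A => (a : Unitization ℂ A)) with hDb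
  set K : ℝ := 1 + ∑ a ∈ D, ‖(a : Unitization ℂ A)‖ with hKdef
  have hK1 : 1 ≤ K := le_add_of_nonneg_right (Finset.sum_nonneg fun a _ => norm_nonneg _)
  have hK : ∀ a ∈ D, ‖(a : Unitization ℂ A)‖ ≤ K := fun a ha => by
    have h := Finset.single_le_sum (f := fun a : A => ‖(a : Unitization ℂ A)‖)
      (fun a _ => norm_nonneg _) ha
    linarith
  obtain ⟨t, ht0, ht1, htε⟩ : ∃ t : ℝ, 0 < t ∧ t ≤ 1 ∧ 5 * (t * K) ≤ ε :=
    ⟨min 1 (ε / (5 * K)), lt_min one_pos (by positivity), min_le_left _ _, by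
      have h := min_le_right (1 : ℝ) (ε / (5 * K))
      rw [le_div_iff₀ (by positivity)] at h
      linarith⟩
  obtain ⟨F, hFne, hFN, hσ⟩ := exists_folner_reps hG N S (ε := t ^ 2 / 5) (by positivity)
  choose F₀ σ hF₀ hcard hinj hmem using hσ
  set n : ℝ := (F.card : ℝ) with hndef
  have hn : (1 : ℝ) ≤ n := Nat.one_le_cast.2 hFne.card_pos
  set δ : ℝ := t / n with hδdef
  have hδ : 0 < δ := by positivity
  have hnδ : n * δ = t := by rw [hδdef]; field_simp
  have hδt : δ ≤ t := hnδ ▸ le_mul_of_one_le_left hδ.le hn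
  have htK : t ≤ t * K := le_mul_of_one_le_right ht0.le hK1
  -- finitely many asymptotically fixing elements and test elements
  let M : Finset G := S.attach.biUnion fun k => (F₀ k k.2).image fun g => (σ k k.2 g)⁻¹ * (k * g)
  let Dt : Finset (Unitization ℂ A) := F.biUnion fun g => Db.image (θG g⁻¹)
  have hDt : ∀ a ∈ Dt, a ∈ inrSet A := fun a ha => by
    obtain ⟨g, -, ha⟩ := Finset.mem_biUnion.1 ha
    obtain ⟨b, hb, rfl⟩ := Finset.mem_image.1 ha
    obtain ⟨a₀, -, ha₀⟩ := Finset.mem_image.1 hb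
    exact hinvI g _ ⟨a₀, ha₀⟩
  obtain ⟨DN, ηN, hηN, hDN, hfixd⟩ := exists_fix_data (inrSet A) θG (M ×ˢ Dt) (fun p hp => by
    obtain ⟨hp1, hp2⟩ := Finset.mem_product.1 hp
    obtain ⟨k, -, hm⟩ := Finset.mem_biUnion.1 hp1
    obtain ⟨g, hg, hg'⟩ := Finset.mem_image.1 hm
    exact ⟨hg' ▸ (hNmem _).1 (hmem k k.2 g hg).2, hDt _ hp2⟩) hδ
  -- the local property (SI) away from `N`
  let θ : {g : G // g ∉ N} → Unitization ℂ A ≃⋆ₐ[ℂ] Unitization ℂ A := fun g => θG g
  let T : Finset {g : G // g ∉ N} :=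
    ((F ×ˢ F).image fun p => p.1⁻¹ * p.2).subtype fun g => g ∉ N
  have hne : ∃ x ∈ inrSet A, x ≠ 0 := by
    obtain ⟨a, ha⟩ := exists_ne (0 : A)
    exact ⟨(a : Unitization ℂ A), ⟨a, rfl⟩, fun h => ha (Unitization.inr_injective h)⟩
  obtain ⟨L, hL⟩ := si_localOn hI hne (hasCPAPOn_inrSet hA) SmallW LargeW
    hcmp (fun D D' hD η η' κ hη x => weightW_mono D D' hD η η' κ hη x) θ
    (fun g => (isOrthOn_or_asympFixOn hI _ fun x => inrSet_aut α _ x).resolve_right fun h => g.2 ((hNmem _).2 h))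
    (DN ∪ Dt) (fun a ha => (Finset.mem_union.1 ha).elim (hDN a) (hDt a)) T
    (ε := min δ ηN) (lt_min hδ hηN)
  obtain ⟨κ, hκ, hdata⟩ := exists_data hω α hM L
  obtain ⟨D', η, hD'I, hη, hloc⟩ := hL κ hκ
  set μ : ℝ := min η δ with hμdef
  have hμη : μ ≤ η := min_le_left _ _
  have hμδ : μ ≤ δ := min_le_right _ _
  obtain ⟨xk, e, q', hxk1, hepos, he1, hqpos, hkD, hkD', hkS, hkL⟩ :=
    hdata D D' (S ∪ F) μ η hD'I (lt_min hη hδ) hμη
  have hf1 : ‖xk * star xk‖ ≤ 1 := by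
    rw [CStarRing.norm_self_mul_star]
    exact mul_le_one₀ hxk1 (norm_nonneg _) hxk1
  obtain ⟨s, -, hs2, hsD, hfs, hsT⟩ := hloc e (xk * star xk) q' hepos
    he1 ⟨star xk, by rw [star_star]⟩ hf1 hqpos
    (fun b hb => ⟨(hkD' b hb).1.1.trans hμη, (hkD' b hb).1.2.1.trans hμη,
      fun p => ((hkD' b hb).1.2.2 p).trans hμη⟩)
    hkS hkL (fun p p' h b hb => ((hkD' b hb).2.1 p p' h).trans hμη)
    (fun p b hb => ((hkD' b hb).2.2 p).trans hμη)
  have hfs' : ‖xk * star xk * s - s‖ ≤ δ := hfs.trans (min_le_left _ _)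
  have hDbt : ∀ g ∈ F, ∀ a ∈ D, θG g⁻¹ (a : Unitization ℂ A) ∈ Dt := fun g hg a ha =>
    Finset.mem_biUnion.2 ⟨g, hg, Finset.mem_image_of_mem _ (Finset.mem_image_of_mem _ ha)⟩
  have hsDt : ∀ g ∈ F, ∀ a ∈ D, ‖(star s * s - e) * θG g⁻¹ (a : Unitization ℂ A)‖ ≤ δ ∧
      ‖s * θG g⁻¹ (a : Unitization ℂ A) - θG g⁻¹ (a : Unitization ℂ A) * s‖ ≤ δ := fun g hg a ha =>
    ⟨(hsD _ (Finset.mem_union_right _ (hDbt g hg a ha))).1.trans (min_le_left _ _),
      (hsD _ (Finset.mem_union_right _ (hDbt g hg a ha))).2.trans (min_le_left _ _)⟩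
  -- the average of the translates
  have horth' : ∀ g ∈ F, ∀ h ∈ F, g ≠ h → ‖star s * θG (g⁻¹ * h) s‖ ≤ δ := by
    intro g hg h hh hne
    have hN : g⁻¹ * h ∉ N := fun hm => hne (hFN g hg h hh hm)
    exact (hsT ⟨_, hN⟩ (Finset.mem_subtype.2
      (Finset.mem_image.2 ⟨(g, h), Finset.mem_product.2 ⟨hg, hh⟩, rfl⟩))).trans (min_le_left _ _)
  refine ⟨xk, avgSum F fun g => θG g s, hxk1, ?_, fun a ha => ?_⟩
  · have h := avgSum_norm_le hFne (fun g => θG g s) hδ.le (R := 4)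
      (fun g _ => by
        rw [CStarRing.norm_star_mul_self, norm_aut]
        nlinarith [norm_nonneg s])
      (fun g hg h hh hne => by
        have e1 : star (θG g s) * θG h s = θG g (star s * θG (g⁻¹ * h) s) := by
          simp only [hθG]
          rw [map_mul (extAction α g), map_star, ← StarAlgEquiv.mul_apply, ← map_mul,
            mul_inv_cancel_left]
        rw [e1, norm_aut]
        exact horth' g hg h hh hne)
    nlinarith [norm_nonneg (avgSum F fun g => θG g s)]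
  obtain ⟨hxxa, hdefa, hxca, hga⟩ := hkD a ha
  have hbK : ‖(a : Unitization ℂ A)‖ ≤ K := hK a ha
  have htb : t * ‖(a : Unitization ℂ A)‖ ≤ t * K := mul_le_mul_of_nonneg_left hbK ht0.le
  obtain ⟨hgr, hfx, hcm, hiv⟩ := avg_estimates (extAction α) hFne (a : Unitization ℂ A) e
    (xk * star xk) hδ.le ht0.le hnδ hs2 hf1 hfs' horth' (fun g hg => hsDt g hg a ha)
    (fun g hg => ⟨((hga g (Finset.mem_union_right S hg)).2.1).trans hμδ,
      ((hga g (Finset.mem_union_right S hg)).2.2).trans hμδ⟩)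
  refine ⟨hxxa.trans (by linarith), ?_, hfx.trans (by linarith), hxca.trans (by linarith),
    hcm.trans (by linarith), fun g hg => ⟨?_, ?_⟩⟩
  · have e2 : (star (avgSum F fun g => θG g s) * avgSum F (fun g => θG g s) -
        (1 - (star xk * xk + xk * star xk))) * (a : Unitization ℂ A) =
        (star (avgSum F fun g => θG g s) * avgSum F (fun g => θG g s) - e) * (a : Unitization ℂ A) +
          (e - (1 - (star xk * xk + xk * star xk))) * (a : Unitization ℂ A) := by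
      rw [← add_mul]; congr 1; abel
    rw [e2]
    exact (norm_add_le _ _).trans ((add_le_add hgr hdefa).trans (by linarith))
  · exact ((hga g (Finset.mem_union_left F hg)).1).trans (by linarith)
  · refine (hiv g (F₀ g hg) (σ g hg) (hF₀ g hg) (hinj g hg) (fun h hh => ⟨(hmem g hg h hh).1, ?_⟩)
      ?_).trans (by linarith)
    · refine hfixd (_, _) (Finset.mem_product.2 ⟨Finset.mem_biUnion.2 ⟨⟨g, hg⟩,
        Finset.mem_attach _ _, Finset.mem_image.2 ⟨h, hh, rfl⟩⟩,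
        hDbt _ (hmem g hg h hh).1 a ha⟩) s hs2 fun d hd => ?_
      exact (hsD d (Finset.mem_union_left _ hd)).2.trans (min_le_right _ _)
    · refine (mul_le_mul_of_nonneg_right (hcard g hg) (by linarith)).trans ?_
      rw [show t ^ 2 / 5 * n * (4 + t) = t ^ 2 * n * ((4 + t) / 5) by ring]
      exact mul_le_of_le_one_right (by positivity) (by linarith)

/-- The relations from strict comparison by traces. -/
theorem approx_relations [Nontrivial A] {G : Type} [Group G] [Countable G] {ω : Ultrafilter ℕ}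
    (hω : (ω : Filter ℕ) ≤ cofinite) (hs : IsTopSimple A) (hA : HasCPAP A)
    (hcmp : HasComparison A) (hτ : HasTrace A) (hG : IsFolner G) (α : G →* (A ≃⋆ₐ[ℂ] A))
    (hM : InvSquareZeroSys (sysFA hω α)) (D : Finset A) (S : Finset G) {ε : ℝ} (hε : 0 < ε) :
    ∃ x v : Unitization ℂ A, ‖x‖ ≤ 1 ∧ ‖v‖ ≤ 3 ∧ ∀ a ∈ D,
      ‖x * x * (a : Unitization ℂ A)‖ ≤ ε ∧
      ‖(star v * v - (1 - (star x * x + x * star x))) * (a : Unitization ℂ A)‖ ≤ ε ∧
      ‖(x * star x * v - v) * (a : Unitization ℂ A)‖ ≤ ε ∧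
      ‖x * (a : Unitization ℂ A) - (a : Unitization ℂ A) * x‖ ≤ ε ∧
      ‖v * (a : Unitization ℂ A) - (a : Unitization ℂ A) * v‖ ≤ ε ∧
      ∀ g ∈ S, ‖(extAction α g x - x) * (a : Unitization ℂ A)‖ ≤ ε ∧
        ‖(extAction α g v - v) * (a : Unitization ℂ A)‖ ≤ ε :=
  approx_relations_of_compares hω hs hA (comparesOn_weights hs hcmp hτ) hG α hM D S hε

end

end Vale.P095.SI.NU
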