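import Vale.Agent.P095.Nonunital.LocallyFinite

/-!
# P095 (SI): from approximate relations to the unital map into `F(A)^α`

The diagonal sequences are chosen along an increasing exhaustion of the data; the rest is the tail
of `fixed_dimDrop_FA`, with the sequences as input instead of local finiteness.
-/

open scoped BoundedContinuousFunction
open Filter Topology

namespace Vale.P095.SI.NU

open Vale.P095.Nonunital Vale.P101

noncomputable section

variable {A : Type*} [NonUnitalCStarAlgebra A] [TopologicalSpace.SeparableSpace A]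
variable {G : Type} [Group G] [Countable G] {ω : Ultrafilter ℕ}

/-- Vanishing defects make the sequences central and fixed. -/
private theorem centralFixed_of_defect (α : G →* (A ≃⋆ₐ[ℂ] A)) (X V : ℕ →ᵇ Unitization ℂ A)
    {a : ℕ → A} (ha : DenseRange a) (h : ∀ (g : G) (j : ℕ),
      Tendsto (fun i => defect (fun b => α g b) (a j) (X i) (V i)) ω (𝓝 0)) :
    (CentralSeq ω fun i => X i) ∧ (CentralSeq ω fun i => V i) ∧
      ∀ g, (AnnSeq ω fun n => extMap (fun a => α g a) (X n) - X n) ∧
        AnnSeq ω fun n => extMap (fun a => α g a) (V n) - V n := by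
  have hpart : ∀ (t : ℕ → ℝ) (g : G) (j : ℕ), (∀ i, 0 ≤ t i) →
      (∀ i, t i ≤ defect (fun b => α g b) (a j) (X i) (V i)) → Tendsto t ω (𝓝 0) :=
    fun t g j h0 ht => squeeze_zero h0 ht (h g j)
  have hXc : CentralSeq ω fun i => X i := centralSeq_of_dense X ha fun j =>
    hpart _ 1 j (fun i => norm_nonneg _) fun i => by
      exact (defect_bounds _ _ _ _).2.2.2.1
  have hVc : CentralSeq ω fun i => V i := centralSeq_of_dense V ha fun j =>
    hpart _ 1 j (fun i => norm_nonneg _) fun i => by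
      exact (defect_bounds _ _ _ _).2.2.2.2.1
  have hfix : ∀ g, (AnnSeq ω fun n => extMap (fun a => α g a) (X n) - X n) ∧
      AnnSeq ω fun n => extMap (fun a => α g a) (V n) - V n := fun g => by
    constructor
    · have := annSeq_of_dense (ω := ω) (bmap (StarAlgHomClass.toStarAlgHom (extAction α g)) X - X)
        ha fun j => hpart _ g j (fun i => norm_nonneg _) fun i => by
          simp only [BoundedContinuousFunction.sub_apply, bmap_apply]
          rw [show StarAlgHomClass.toStarAlgHom (extAction α g) (X i) = _ from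
            extAction_eq_extMap α g (X i)]
          exact (defect_bounds _ _ _ _).2.2.2.2.2.1
      intro b
      refine (this b).congr fun i => ?_
      simp only [BoundedContinuousFunction.sub_apply, bmap_apply]
      rw [show StarAlgHomClass.toStarAlgHom (extAction α g) (X i) = _ from
        extAction_eq_extMap α g (X i)]
    · have := annSeq_of_dense (ω := ω) (bmap (StarAlgHomClass.toStarAlgHom (extAction α g)) V - V)
        ha fun j => hpart _ g j (fun i => norm_nonneg _) fun i => by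
          simp only [BoundedContinuousFunction.sub_apply, bmap_apply]
          rw [show StarAlgHomClass.toStarAlgHom (extAction α g) (V i) = _ from
            extAction_eq_extMap α g (V i)]
          exact (defect_bounds _ _ _ _).2.2.2.2.2.2
      intro b
      refine (this b).congr fun i => ?_
      simp only [BoundedContinuousFunction.sub_apply, bmap_apply]
      rw [show StarAlgHomClass.toStarAlgHom (extAction α g) (V i) = _ from
        extAction_eq_extMap α g (V i)]
  exact ⟨hXc, hVc, hfix⟩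

/-- Vanishing defects on a dense sequence give relations among the fixed points of `F(A)`. -/
private theorem fixedRelations_of_defect (hω : (ω : Filter ℕ) ≤ cofinite)
    (α : G →* (A ≃⋆ₐ[ℂ] A)) (X V : ℕ →ᵇ Unitization ℂ A) {a : ℕ → A} (ha : DenseRange a)
    (h : ∀ (g : G) (j : ℕ),
      Tendsto (fun i => defect (fun b => α g b) (a j) (X i) (V i)) ω (𝓝 0)) :
    ∃ x v : fixedAlg (sysFA hω α).act, x * x = 0 ∧
      star v * v = 1 - (star x * x + x * star x) ∧ x * star x * v = v := by
  obtain ⟨hXc, hVc, hfix⟩ := centralFixed_of_defect α X V ha h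
  refine ⟨⟨_, fun g => (act_ofSeq_eq_self_iff hω α g hXc).2 (hfix g).1⟩,
    ⟨_, fun g => (act_ofSeq_eq_self_iff hω α g hVc).2 (hfix g).2⟩,
    Subtype.ext ?_, Subtype.ext ?_, Subtype.ext ?_⟩
  · show ofSeq X hXc * ofSeq X hXc = 0
    simp only [ofSeq, ← map_mul, ← map_zero (relProj (Unitization ℂ A) ω (inrSet A))]
    refine (relProj_eq_iff (f := X * X) (g := 0) (by simp) (by simp)).2 ?_
    simpa using (relations_of_defect _ X V ha (h 1)).1
  · show star (ofSeq V hVc) * ofSeq V hVc =
      1 - (star (ofSeq X hXc) * ofSeq X hXc + ofSeq X hXc * star (ofSeq X hXc))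
    simp only [ofSeq, ← map_star, ← map_mul, ← map_add,
      ← map_one (relProj (Unitization ℂ A) ω (inrSet A)), ← map_sub]
    refine (relProj_eq_iff (f := star V * V) (g := 1 - (star X * X + X * star X))
      (by simp [mk_star_seq]) (by simp [mk_star_seq])).2 ?_
    simpa using (relations_of_defect _ X V ha (h 1)).2.1
  · show ofSeq X hXc * star (ofSeq X hXc) * ofSeq V hVc = ofSeq V hVc
    simp only [ofSeq, ← map_star, ← map_mul]
    refine (relProj_eq_iff (f := X * star X * V) (g := V) (by simp [mk_star_seq]) rfl).2 ?_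
    simpa using (relations_of_defect _ X V ha (h 1)).2.2

/-- Relations among the fixed points give the map, spelled out on sequences. -/
private theorem hasFixedDimDrop_of_relations (hω : (ω : Filter ℕ) ≤ cofinite)
    (α : G →* (A ≃⋆ₐ[ℂ] A))
    (h : ∃ x v : fixedAlg (sysFA hω α).act, x * x = 0 ∧
      star v * v = 1 - (star x * x + x * star x) ∧ x * star x * v = v) :
    HasFixedDimDropHomFA ω (fun g a => α g a) := by
  classical
  obtain ⟨x, v, hx, hv, hxv⟩ := h
  obtain ⟨φ⟩ := DD.exists_dimDrop_hom x v hx hv hxv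
  choose R hR hRy _hRn using fun y : FA A ω => exists_ofSeq y
  let Φ : DD.dimDrop23 →⋆ₐ[ℂ] FA A ω := (fixedAlg (sysFA hω α).act).subtype.comp φ
  let ψ : C(Set.Icc (0 : ℝ) 1, DD.M6) → ℕ → Unitization ℂ A := fun f =>
    if hf : f ∈ DD.dimDrop23 then fun n => R (Φ ⟨f, hf⟩) n else fun _ => 0
  have hψ : ∀ f (hf : f ∈ DD.dimDrop23) n, ψ f n = R (Φ ⟨f, hf⟩) n := fun f hf n => by
    simp [ψ, hf]
  have hrel : ∀ (y : Central (Unitization ℂ A) ω) (g : ℕ →ᵇ Unitization ℂ A),
      cls ω g = (y : Ultrapower (Unitization ℂ A) ω) → ∀ z,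
      relProj (Unitization ℂ A) ω (inrSet A) y = z → AnnSeq ω fun n => R z n - g n := by
    intro y g hg z hz
    refine (relProj_eq_iff (x := ⟨cls ω (R z), (cls_mem_central_iff _).2 (hR z)⟩) rfl hg).1 ?_
    exact (hRy z).trans hz.symm
  let K : FA A ω → Central (Unitization ℂ A) ω := fun z =>
    ⟨cls ω (R z), (cls_mem_central_iff _).2 (hR z)⟩
  have hK : ∀ z, relProj (Unitization ℂ A) ω (inrSet A) (K z) = z := hRy
  refine ⟨ψ, fun f hf => ⟨?_, fun g => ?_, ?_, fun c => ?_, fun f' hf' => ⟨?_, ?_⟩⟩⟩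
  · simpa only [show ψ f = fun n => R (Φ ⟨f, hf⟩) n from funext (hψ f hf)] using hR _
  · simp only [hψ f hf]
    refine (act_ofSeq_eq_self_iff hω α g (hR _)).1 ?_
    rw [hRy]
    exact (φ ⟨f, hf⟩).2 g
  · simp only [hψ f hf, hψ _ (star_mem hf)]
    exact hrel (star (K (Φ ⟨f, hf⟩))) (star (R _)) (by simp [K, mk_star_seq]) _
      (by rw [map_star, hK, ← map_star]; rfl)
  · simp only [hψ _ (algebraMap_mem DD.dimDrop23 c)]
    exact hrel (algebraMap ℂ _ c) (algebraMap ℂ _ c) (AlgHomClass.commutes (cls ω) c) _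
      (by rw [AlgHomClass.commutes, ← AlgHomClass.commutes Φ]; rfl)
  · simp only [hψ _ hf, hψ _ hf', hψ _ (add_mem hf hf')]
    exact hrel (K (Φ ⟨f, hf⟩) + K (Φ ⟨f', hf'⟩)) (R _ + R _) (by simp [K]) _
      (by rw [map_add, hK, hK, ← map_add]; rfl)
  · simp only [hψ _ hf, hψ _ hf', hψ _ (mul_mem hf hf')]
    exact hrel (K (Φ ⟨f, hf⟩) * K (Φ ⟨f', hf'⟩)) (R _ * R _) (by simp [K]) _
      (by rw [map_mul, hK, hK, ← map_mul]; rfl)

theorem fixed_relations_of_approx (hω : (ω : Filter ℕ) ≤ cofinite) (α : G →* (A ≃⋆ₐ[ℂ] A))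
    (h : ∀ (D : Finset A) (S : Finset G) (ε : ℝ), 0 < ε →
      ∃ x v : Unitization ℂ A, ‖x‖ ≤ 1 ∧ ‖v‖ ≤ 3 ∧ ∀ a ∈ D,
        ‖x * x * (a : Unitization ℂ A)‖ ≤ ε ∧
        ‖(star v * v - (1 - (star x * x + x * star x))) * (a : Unitization ℂ A)‖ ≤ ε ∧
        ‖(x * star x * v - v) * (a : Unitization ℂ A)‖ ≤ ε ∧
        ‖x * (a : Unitization ℂ A) - (a : Unitization ℂ A) * x‖ ≤ ε ∧
        ‖v * (a : Unitization ℂ A) - (a : Unitization ℂ A) * v‖ ≤ ε ∧
        ∀ g ∈ S, ‖(extAction α g x - x) * (a : Unitization ℂ A)‖ ≤ ε ∧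
          ‖(extAction α g v - v) * (a : Unitization ℂ A)‖ ≤ ε) :
    ∃ x v : fixedAlg (sysFA hω α).act, x * x = 0 ∧
      star v * v = 1 - (star x * x + x * star x) ∧ x * star x * v = v := by
  classical
  obtain ⟨e, he⟩ := exists_surjective_nat G
  obtain ⟨a, ha⟩ := TopologicalSpace.exists_dense_seq A
  have hn := fun n : ℕ => h ((Finset.range (n + 1)).image a) ((Finset.range (n + 1)).image e)
    (1 / ((n : ℝ) + 1)) (by positivity)
  choose xs vs hx hv hd using hn
  let X : ℕ →ᵇ Unitization ℂ A := BoundedContinuousFunction.ofNormedAddCommGroup xs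
    continuous_of_discreteTopology 1 hx
  let V : ℕ →ᵇ Unitization ℂ A := BoundedContinuousFunction.ofNormedAddCommGroup vs
    continuous_of_discreteTopology 3 hv
  refine fixedRelations_of_defect hω α X V ha fun g j => ?_
  obtain ⟨k, rfl⟩ := he g
  have hlim : Tendsto (fun i : ℕ => 7 * (1 / ((i : ℝ) + 1))) ω (𝓝 0) := by
    have := (tendsto_one_div_add_atTop_nhds_zero_nat (𝕜 := ℝ)).mono_left
      (Nat.cofinite_eq_atTop ▸ hω)
    simpa using this.const_mul 7
  refine squeeze_zero' (Eventually.of_forall fun i => ?_) ?_ hlim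
  · show 0 ≤ defect _ _ _ _
    unfold defect
    positivity
  · have hev : ∀ᶠ i in (ω : Filter ℕ), max j k ≤ i :=
      hω (Nat.cofinite_eq_atTop ▸ eventually_ge_atTop _)
    filter_upwards [hev] with i hi
    obtain ⟨h1, h2, h3, h4, h5, h6⟩ := hd i (a j) (Finset.mem_image_of_mem a
      (Finset.mem_range.2 (Nat.lt_succ_of_le ((le_max_left j k).trans hi))))
    obtain ⟨h7, h8⟩ := h6 (e k) (Finset.mem_image_of_mem e
      (Finset.mem_range.2 (Nat.lt_succ_of_le ((le_max_right j k).trans hi))))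
    rw [extAction_eq_extMap] at h7 h8
    show defect (fun b => α (e k) b) (a j) (xs i) (vs i) ≤ _
    unfold defect
    linarith

theorem fixed_dimDrop_of_approx (hω : (ω : Filter ℕ) ≤ cofinite) (α : G →* (A ≃⋆ₐ[ℂ] A))
    (h : ∀ (D : Finset A) (S : Finset G) (ε : ℝ), 0 < ε →
      ∃ x v : Unitization ℂ A, ‖x‖ ≤ 1 ∧ ‖v‖ ≤ 3 ∧ ∀ a ∈ D,
        ‖x * x * (a : Unitization ℂ A)‖ ≤ ε ∧
        ‖(star v * v - (1 - (star x * x + x * star x))) * (a : Unitization ℂ A)‖ ≤ ε ∧
        ‖(x * star x * v - v) * (a : Unitization ℂ A)‖ ≤ ε ∧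
        ‖x * (a : Unitization ℂ A) - (a : Unitization ℂ A) * x‖ ≤ ε ∧
        ‖v * (a : Unitization ℂ A) - (a : Unitization ℂ A) * v‖ ≤ ε ∧
        ∀ g ∈ S, ‖(extAction α g x - x) * (a : Unitization ℂ A)‖ ≤ ε ∧
          ‖(extAction α g v - v) * (a : Unitization ℂ A)‖ ≤ ε) :
    HasFixedDimDropHomFA ω (fun g a => α g a) :=
  hasFixedDimDrop_of_relations hω α (fixed_relations_of_approx hω α h)

end

end Vale.P095.SI.NU
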