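import Vale.Agent.P095.Nonunital.System
import Vale.Agent.P095.Tracial.Main

/-!
# P095 (SI): exact square zero elements, almost invariant in norm, in an algebra with copies

For `a` from the two-norm estimates: `e₀ = f_δ (∑ d d*)` for the translated defects, `e` its
Foelner average, `b = (1 - e) a`, `x = k₋ b k₊` with `k = b* b - b b*`: `x * x = 0` exactly.
-/

namespace Vale.P095.SI

open Vale.P095.Nonunital Vale.P095.Tracial

variable {G : Type*} [Group G] {E : Type*} [CStarAlgebra E]

/-- Exact square zero, almost invariant in norm, almost full in all traces. -/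
def InvSquareZeroSys (sys : Sys G E) : Prop :=
  ∀ (S : Finset G) (ε : ℝ), 0 < ε → ∃ x : E, ‖x‖ ≤ 1 ∧ x * x = 0 ∧
    (∀ g ∈ S, ‖sys.act g x - x‖ ≤ ε) ∧
    ∀ t : E →ₗ[ℝ] ℝ, IsTrace t → t (1 - (star x * x + x * star x)) ≤ ε * t 1

section LiftAux

attribute [local instance] CStarAlgebra.spectralOrder CStarAlgebra.spectralOrderedRing

variable {A : Type*} [CStarAlgebra A]

variable {t : A →ₗ[ℝ] ℝ}

/-- The square of the trace two-norm. -/
private noncomputable def liftQ (t : A →ₗ[ℝ] ℝ) (y : A) : ℝ := t (star y * y)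

private theorem liftQ_add (ht : IsTrace t) (x y : A) :
    liftQ t (x + y) ≤ 2 * liftQ t x + 2 * liftQ t y :=
  ht.add_mul_self_le x y

private theorem liftQ_star (ht : IsTrace t) (y : A) : liftQ t (star y) = liftQ t y := by
  rw [liftQ, star_star, ht.comm]; rfl

private theorem liftQ_mul_left (ht : IsTrace t) (u y : A) :
    liftQ t (u * y) ≤ ‖u‖ ^ 2 * liftQ t y := by
  have h := ht.conj_le (IsSelfAdjoint.star_mul_self u) y
  rwa [CStarRing.norm_star_mul_self, ← pow_two, ← mul_assoc, mul_assoc (star y * star u),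
    ← star_mul] at h

private theorem liftQ_mul_right (ht : IsTrace t) (y w : A) :
    liftQ t (y * w) ≤ ‖w‖ ^ 2 * liftQ t y := by
  rw [← liftQ_star ht, star_mul, ← liftQ_star ht y, ← norm_star w]
  exact liftQ_mul_left ht _ _

private theorem liftQ_mul_left_one (ht : IsTrace t) {u : A} (hu : ‖u‖ ≤ 1) (y : A) :
    liftQ t (u * y) ≤ liftQ t y :=
  (liftQ_mul_left ht u y).trans (mul_le_of_le_one_left (ht.nonneg y)
    (pow_le_one₀ (norm_nonneg u) hu))

private theorem liftQ_mul_right_one (ht : IsTrace t) (y : A) {w : A} (hw : ‖w‖ ≤ 1) :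
    liftQ t (y * w) ≤ liftQ t y :=
  (liftQ_mul_right ht y w).trans (mul_le_of_le_one_left (ht.nonneg y)
    (pow_le_one₀ (norm_nonneg w) hw))

private theorem liftQ_le_one (ht : IsTrace t) {u : A} (hu : ‖u‖ ≤ 1) :
    liftQ t u ≤ t 1 := by
  have h := liftQ_mul_left_one ht hu 1
  have e : liftQ t 1 = t 1 := by rw [liftQ, star_one, mul_one]
  rwa [mul_one, e] at h

private theorem lift_abs_le {x : A} {r : ℝ} (hr : r ∈ spectrum ℝ x) : |r| ≤ ‖x‖ := by
  rcases subsingleton_or_nontrivial A with hA | hA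
  · simp [spectrum.of_subsingleton] at hr
  · simpa using spectrum.norm_le_norm_of_mem hr

/-- The positive part of the spectrum. -/
private noncomputable def liftPos (h : A) : A := cfc (fun r : ℝ => max 0 r) h

/-- The negative part of the spectrum. -/
private noncomputable def liftNeg (h : A) : A := cfc (fun r : ℝ => max 0 (-r)) h

private theorem liftNeg_mul_liftPos (h : A) (hh : IsSelfAdjoint h) :
    liftPos h * liftNeg h = 0 := by
  rw [liftPos, liftNeg, ← cfc_mul (fun r : ℝ => max 0 r) (fun r : ℝ => max 0 (-r)) h]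
  have : cfc (fun r : ℝ => max 0 r * max 0 (-r)) h = cfc (fun _ : ℝ => (0 : ℝ)) h :=
    cfc_congr fun r _ => by
      rcases le_total 0 r with hr | hr
      · simp [max_eq_left (neg_nonpos.2 hr)]
      · simp [max_eq_left hr]
  rw [this, cfc_const_zero]

private theorem liftPos_sub_liftNeg (h : A) (hh : IsSelfAdjoint h) :
    liftPos h - liftNeg h = h := by
  rw [liftPos, liftNeg, ← cfc_sub (fun r : ℝ => max 0 r) (fun r : ℝ => max 0 (-r)) h]
  conv_rhs => rw [← cfc_id' ℝ h]
  exact cfc_congr fun r _ => by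
    rcases le_total 0 r with hr | hr
    · simp [max_eq_left (neg_nonpos.2 hr), max_eq_right hr]
    · simp [max_eq_left hr, max_eq_right (neg_nonneg.2 hr)]

private theorem norm_liftPos_le {h : A} (hh : IsSelfAdjoint h) (h1 : ‖h‖ ≤ 1) :
    ‖liftPos h‖ ≤ 1 ∧ ‖liftNeg h‖ ≤ 1 := by
  constructor <;> refine norm_cfc_le zero_le_one fun r hr => ?_
  all_goals
    have h3 : |r| ≤ 1 := (lift_abs_le hr).trans h1
    rw [abs_le] at h3
    rw [Real.norm_eq_abs, abs_of_nonneg (le_max_left _ _)]
    exact max_le zero_le_one (by linarith)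

/-- The square zero element built from `b`. -/
private noncomputable def liftX (b : A) : A :=
  liftNeg (star b * b - b * star b) * b * liftPos (star b * b - b * star b)

private theorem lift_h_props {b : A} (hb : ‖b‖ ≤ 1) :
    IsSelfAdjoint (star b * b - b * star b) ∧ ‖star b * b - b * star b‖ ≤ 1 := by
  refine ⟨(IsSelfAdjoint.star_mul_self b).sub (IsSelfAdjoint.mul_star_self b), ?_⟩
  set p := star b * b
  set q := b * star b
  have hp0 : 0 ≤ p := star_mul_self_nonneg b
  have hq0 : 0 ≤ q := mul_star_self_nonneg b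
  have hp1 : ‖p‖ ≤ 1 := by
    rw [CStarRing.norm_star_mul_self]; exact mul_le_one₀ hb (norm_nonneg _) hb
  have hq1 : ‖q‖ ≤ 1 := by
    rw [CStarRing.norm_self_mul_star]; exact mul_le_one₀ hb (norm_nonneg _) hb
  rcases subsingleton_or_nontrivial A with hA | hA
  · simp [Subsingleton.elim (p - q) 0]
  have hpa : p ≤ algebraMap ℝ A 1 := hp0.isSelfAdjoint.le_algebraMap_norm_self.trans
    (algebraMap_le_algebraMap.2 hp1 |>.trans le_rfl)
  have hqa : q ≤ algebraMap ℝ A 1 := hq0.isSelfAdjoint.le_algebraMap_norm_self.trans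
    (algebraMap_le_algebraMap.2 hq1 |>.trans le_rfl)
  have hsa : IsSelfAdjoint (p - q) := hp0.isSelfAdjoint.sub hq0.isSelfAdjoint
  have h2 : ∀ r ∈ spectrum ℝ (p - q), |r| ≤ 1 := by
    intro r hr
    have u1 : p - q ≤ algebraMap ℝ A 1 := (sub_le_self p hq0).trans hpa
    have u2 : algebraMap ℝ A (-1) ≤ p - q := by
      rw [map_neg, neg_le, neg_sub]
      exact (sub_le_self q hp0).trans hqa
    exact abs_le.2 ⟨(algebraMap_le_iff_le_spectrum hsa).1 u2 r hr,
      (le_algebraMap_iff_spectrum_le hsa).1 u1 r hr⟩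
  have := norm_cfc_le (a := p - q) (f := fun r : ℝ => r) zero_le_one
    (fun r hr => by rw [Real.norm_eq_abs]; exact h2 r hr)
  rwa [cfc_id' ℝ (p - q)] at this

private theorem liftX_sq {b : A} (hb : ‖b‖ ≤ 1) : liftX b * liftX b = 0 := by
  have e := liftNeg_mul_liftPos _ (lift_h_props hb).1
  simp only [liftX, mul_assoc]
  rw [← mul_assoc (liftPos _) (liftNeg _), e, zero_mul, mul_zero, mul_zero]

private theorem norm_liftX_le {b : A} (hb : ‖b‖ ≤ 1) : ‖liftX b‖ ≤ 1 := by
  obtain ⟨hh, h1⟩ := lift_h_props hb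
  obtain ⟨hP, hN⟩ := norm_liftPos_le hh h1
  calc ‖liftX b‖ ≤ ‖liftNeg (star b * b - b * star b)‖ * ‖b‖ *
        ‖liftPos (star b * b - b * star b)‖ := norm_mul₃_le
    _ ≤ 1 := mul_le_one₀ (mul_le_one₀ hN (norm_nonneg _) hb) (norm_nonneg _) hP

/-- In two-norm the square zero element is close to `b`. -/
private theorem liftQ_liftX_sub (ht : IsTrace t) {b : A} (hb : ‖b‖ ≤ 1) :
    liftQ t (liftX b - b) ≤
      128 * (liftQ t (star b * b + b * star b - 1) + liftQ t (b * b)) := by
  obtain ⟨hh, hh1⟩ := lift_h_props hb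
  have hb' : ‖star b‖ ≤ 1 := by rwa [norm_star]
  rw [liftX]
  set h := star b * b - b * star b with hh0
  set p := star b * b with hp0
  set q := b * star b with hq0
  have hp : ‖p‖ ≤ 1 := (norm_mul_le _ _).trans (mul_le_one₀ hb' (norm_nonneg _) hb)
  have hq : ‖q‖ ≤ 1 := (norm_mul_le _ _).trans (mul_le_one₀ hb (norm_nonneg _) hb')
  obtain ⟨hP, hM⟩ := norm_liftPos_le hh hh1
  set P := liftPos h with hP0
  set M := liftNeg h with hM0
  set d := liftQ t (p + q - 1) with hd
  set s := liftQ t (b * b) with hs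
  have hd0 : 0 ≤ d := ht.nonneg _
  have hs0 : 0 ≤ s := ht.nonneg _
  have hpq : liftQ t (p * q) ≤ s := by
    have e : p * q = star b * (b * b) * star b := by simp only [hp0, hq0, mul_assoc]
    rw [e]
    exact (liftQ_mul_right_one ht _ hb').trans (liftQ_mul_left_one ht hb' _)
  have hqp : liftQ t (q * p) ≤ s := by
    have e : q * p = b * star (b * b) * b := by simp only [hp0, hq0, star_mul, mul_assoc]
    rw [e]
    exact ((liftQ_mul_right_one ht _ hb).trans (liftQ_mul_left_one ht hb _)).trans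
      (liftQ_star ht _).le
  have hscal : ∀ (c : ℝ) (y : A), liftQ t (c • y) = c ^ 2 * liftQ t y := fun c y => by
    simp only [liftQ, star_smul, star_trivial, smul_mul_assoc, mul_smul_comm, map_smul, smul_eq_mul]
    ring
  have hh2 : liftQ t (h * h - 1) ≤ 18 * d + 32 * s := by
    have e : h * h - 1 = (p + q - 1) * (p + q + 1) + (-2 : ℝ) • (p * q + q * p) := by
      simp only [hh0, sub_mul, mul_sub, add_mul, mul_add, mul_one, one_mul]
      module
    have h3 : liftQ t ((p + q - 1) * (p + q + 1)) ≤ 9 * d := by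
      refine (liftQ_mul_right ht _ _).trans (mul_le_mul_of_nonneg_right ?_ hd0)
      have : ‖p + q + 1‖ ≤ 3 := by
        rcases subsingleton_or_nontrivial A with hA | hA
        · simp [Subsingleton.elim (p + q + 1) 0]
        · have := norm_add₃_le (a := p) (b := q) (c := (1 : A))
          rw [norm_one] at this
          linarith
      nlinarith [norm_nonneg (p + q + 1)]
    have h4 := liftQ_add ht ((p + q - 1) * (p + q + 1)) ((-2 : ℝ) • (p * q + q * p))
    have h5 := liftQ_add ht (p * q) (q * p)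
    rw [hscal] at h4
    rw [e]
    linarith
  have habs : liftQ t (P + M - 1) ≤ liftQ t (h * h - 1) := by
    have e1 : P + M - 1 = cfc (fun r : ℝ => max 0 r + max 0 (-r) - 1) h := by
      rw [cfc_sub (fun r : ℝ => max 0 r + max 0 (-r)) (fun _ => 1) h, cfc_const_one ℝ h,
        cfc_add h (fun r : ℝ => max 0 r) (fun r : ℝ => max 0 (-r))]
      rfl
    have e2 : h * h - 1 = cfc (fun r : ℝ => r * r - 1) h := by
      rw [cfc_sub (fun r : ℝ => r * r) (fun _ => 1) h, cfc_const_one ℝ h,
        cfc_mul (fun r : ℝ => r) (fun r : ℝ => r) h, cfc_id' ℝ h]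
    have s1 : IsSelfAdjoint (cfc (fun r : ℝ => max 0 r + max 0 (-r) - 1) h) := cfc_predicate _ h
    have s2 : IsSelfAdjoint (cfc (fun r : ℝ => r * r - 1) h) := cfc_predicate _ h
    rw [liftQ, liftQ, e1, e2, s1.star_eq, s2.star_eq,
      ← cfc_mul (fun r : ℝ => max 0 r + max 0 (-r) - 1) (fun r : ℝ => max 0 r + max 0 (-r) - 1) h,
      ← cfc_mul (fun r : ℝ => r * r - 1) (fun r : ℝ => r * r - 1) h]
    refine ht.cfc_le (by fun_prop) (by fun_prop) fun r _ => ?_
    rcases le_total 0 r with hr | hr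
    · rw [max_eq_left (neg_nonpos.2 hr), max_eq_right hr]
      nlinarith [mul_nonneg (mul_self_nonneg (r - 1)) (by nlinarith : (0:ℝ) ≤ r * (r + 2))]
    · rw [max_eq_left hr, max_eq_right (neg_nonneg.2 hr)]
      nlinarith [mul_nonneg (mul_self_nonneg (r + 1)) (by nlinarith : (0:ℝ) ≤ r * (r - 2))]
  have hsub : P - M = h := liftPos_sub_liftNeg h hh
  have hPp : liftQ t (P - p) ≤ 16 * (d + s) := by
    have e : P - p = (1 / 2 : ℝ) • (P + M - 1) + (-(1 / 2) : ℝ) • (p + q - 1) := by
      have : p - q = P - M := hsub.symm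
      linear_combination (norm := module) (-(1 / 2) : ℝ) • this
    have := liftQ_add ht ((1 / 2 : ℝ) • (P + M - 1)) ((-(1 / 2) : ℝ) • (p + q - 1))
    rw [← e, hscal, hscal] at this
    linarith
  have hMq : liftQ t (M - q) ≤ 16 * (d + s) := by
    have e : M - q = (1 / 2 : ℝ) • (P + M - 1) + (-(1 / 2) : ℝ) • (p + q - 1) := by
      have : p - q = P - M := hsub.symm
      linear_combination (norm := module) (1 / 2 : ℝ) • this
    have := liftQ_add ht ((1 / 2 : ℝ) • (P + M - 1)) ((-(1 / 2) : ℝ) • (p + q - 1))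
    rw [← e, hscal, hscal] at this
    linarith
  have hbp : liftQ t (b * p - b) ≤ 2 * d + 2 * s := by
    have e : b * p - b = b * (p + q - 1) + -(b * b * star b) := by
      simp only [hp0, hq0, mul_sub, mul_add, mul_one, mul_assoc]; abel
    have h3 : liftQ t (-(b * b * star b)) = liftQ t (b * b * star b) := by simp [liftQ]
    have h4 := liftQ_add ht (b * (p + q - 1)) (-(b * b * star b))
    have h5 := liftQ_mul_left_one ht hb (p + q - 1)
    have h6 := liftQ_mul_right_one ht (b * b) hb'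
    rw [e]
    linarith
  have hqb : liftQ t (q * b - b) ≤ 2 * d + 2 * s := by
    have e : q * b - b = (p + q - 1) * b + -(star b * (b * b)) := by
      simp only [hp0, hq0, sub_mul, add_mul, one_mul, mul_assoc]; abel
    have h3 : liftQ t (-(star b * (b * b))) = liftQ t (star b * (b * b)) := by simp [liftQ]
    have h4 := liftQ_add ht ((p + q - 1) * b) (-(star b * (b * b)))
    have h5 := liftQ_mul_right_one ht (p + q - 1) hb
    have h6 := liftQ_mul_left_one ht hb' (b * b)
    rw [e]
    linarith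
  have e : M * b * P - b = (M - q) * b * P + (q * b * (P - p) + ((q * b - b) * p + (b * p - b))) := by
    noncomm_ring
  rw [e]
  have h1 := liftQ_add ht ((M - q) * b * P) (q * b * (P - p) + ((q * b - b) * p + (b * p - b)))
  have h2 := liftQ_add ht (q * b * (P - p)) ((q * b - b) * p + (b * p - b))
  have h3 := liftQ_add ht ((q * b - b) * p) (b * p - b)
  have h4 := (liftQ_mul_right_one ht ((M - q) * b) hP).trans (liftQ_mul_right_one ht _ hb)
  have h5 := liftQ_mul_left_one ht ((norm_mul_le q b).trans (mul_le_one₀ hq (norm_nonneg _) hb))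
    (P - p)
  have h6 := liftQ_mul_right_one ht (q * b - b) hp
  linarith

/-- The trace of `x*x + xx*`. -/
private theorem lift_trace_bound (ht : IsTrace t) {a e : A} (ha : ‖a‖ ≤ 1)
    (he : ‖1 - e‖ ≤ 1) {s : ℝ} (hs0 : 0 ≤ s)
    (hd : liftQ t (star a * a + a * star a - 1) ≤ s * t 1)
    (hs : liftQ t (a * a) ≤ s * t 1) (hr : liftQ t e ≤ s * t 1) :
    (1 - 500 * √s) * t 1 ≤
      t (star (liftX ((1 - e) * a)) * liftX ((1 - e) * a) +
        liftX ((1 - e) * a) * star (liftX ((1 - e) * a))) := by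
  set b := (1 - e) * a with hb0
  have hb : ‖b‖ ≤ 1 := (norm_mul_le _ _).trans (mul_le_one₀ he (norm_nonneg _) ha)
  have hX := norm_liftX_le hb
  set σ := s * t 1 with hσ0
  have hσ : 0 ≤ σ := (ht.nonneg _).trans hs
  have hT : 0 ≤ t 1 := one_nonneg_of ht
  have ha' : ‖star a‖ ≤ 1 := by rwa [norm_star]
  have hb' : ‖star b‖ ≤ 1 := by rwa [norm_star]
  have hneg : ∀ y : A, liftQ t (-y) = liftQ t y := fun y => by simp [liftQ]
  have hba : liftQ t (b - a) ≤ σ := by
    have e1 : b - a = -(e * a) := by rw [hb0, sub_mul, one_mul]; abel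
    rw [e1, hneg]
    exact (liftQ_mul_right_one ht e ha).trans hr
  have hba' : liftQ t (star (b - a)) ≤ σ := (liftQ_star ht _).trans_le hba
  have hbb : liftQ t (b * b - a * a) ≤ 4 * σ := by
    have e1 : b * b - a * a = b * (b - a) + (b - a) * a := by noncomm_ring
    have h3 := liftQ_add ht (b * (b - a)) ((b - a) * a)
    have h4 := liftQ_mul_left_one ht hb (b - a)
    have h5 := liftQ_mul_right_one ht (b - a) ha
    rw [e1]; linarith
  have hpp : liftQ t (star b * b - star a * a) ≤ 4 * σ := by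
    have e1 : star b * b - star a * a = star b * (b - a) + star (b - a) * a := by
      simp only [star_sub]; noncomm_ring
    have h3 := liftQ_add ht (star b * (b - a)) (star (b - a) * a)
    have h4 := liftQ_mul_left_one ht hb' (b - a)
    have h5 := liftQ_mul_right_one ht (star (b - a)) ha
    rw [e1]; linarith
  have hqq : liftQ t (b * star b - a * star a) ≤ 4 * σ := by
    have e1 : b * star b - a * star a = b * star (b - a) + (b - a) * star a := by
      simp only [star_sub]; noncomm_ring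
    have h3 := liftQ_add ht (b * star (b - a)) ((b - a) * star a)
    have h4 := liftQ_mul_left_one ht hb (star (b - a))
    have h5 := liftQ_mul_right_one ht (b - a) ha'
    rw [e1]; linarith
  have hsb : liftQ t (b * b) ≤ 10 * σ := by
    have h3 := liftQ_add ht (a * a) (b * b - a * a)
    rw [add_sub_cancel] at h3
    linarith
  have hdb : liftQ t (star b * b + b * star b - 1) ≤ 34 * σ := by
    have h3 := liftQ_add ht (star a * a + a * star a - 1)
      ((star b * b - star a * a) + (b * star b - a * star a))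
    have h4 := liftQ_add ht (star b * b - star a * a) (b * star b - a * star a)
    rw [show star a * a + a * star a - 1 + (star b * b - star a * a + (b * star b - a * star a)) =
      star b * b + b * star b - 1 by abel] at h3
    linarith
  have hXb := liftQ_liftX_sub ht hb
  set X := liftX b with hX0
  have hXa : liftQ t (X - a) ≤ 12000 * σ := by
    have h3 := liftQ_add ht (X - b) (b - a)
    rw [sub_add_sub_cancel] at h3
    linarith
  have hcs : ∀ u y : A, liftQ t u ≤ t 1 → |t (star u * y)| ≤ √(t 1 * liftQ t y) := fun u y hu => by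
    refine Real.abs_le_sqrt ((ht.cauchy_schwarz u y).trans ?_)
    exact mul_le_mul_of_nonneg_right hu (ht.nonneg y)
  have k1 := hcs X (X - a) (liftQ_le_one ht hX)
  have k2 := hcs a (X - a) (liftQ_le_one ht ha)
  have k3 := hcs 1 (star a * a + a * star a - 1)
    (by rw [liftQ, star_one, mul_one])
  rw [star_one, one_mul, map_sub, map_add] at k3
  have e2 : t (star (X - a) * a) = t (star a * (X - a)) := by
    rw [← ht.map_star (star a * (X - a))]; simp [star_mul]
  have e3 : t (star X * X) - t (star a * a) = t (star X * (X - a)) + t (star a * (X - a)) := by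
    rw [← e2, ← map_sub, ← map_add]
    congr 1
    simp only [star_sub]; noncomm_ring
  have hsq : ∀ K : ℝ, 0 ≤ K → √(K ^ 2 * s * (t 1) ^ 2) = K * √s * t 1 := fun K hK => by
    rw [Real.sqrt_mul (by positivity), Real.sqrt_mul (by positivity), Real.sqrt_sq hK,
      Real.sqrt_sq hT]
  have r1 : √(t 1 * liftQ t (X - a)) ≤ 120 * √s * t 1 := by
    rw [← hsq 120 (by norm_num)]
    refine Real.sqrt_le_sqrt ?_
    have := mul_le_mul_of_nonneg_left hXa hT
    rw [hσ0] at this
    nlinarith [mul_nonneg (mul_nonneg hs0 hT) hT]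
  have r2 : √(t 1 * liftQ t (star a * a + a * star a - 1)) ≤ 1 * √s * t 1 := by
    rw [← hsq 1 (by norm_num)]
    refine Real.sqrt_le_sqrt ?_
    have := mul_le_mul_of_nonneg_left hd hT
    rw [hσ0] at this
    nlinarith
  rw [map_add, ht.comm X (star X)]
  rw [ht.comm a (star a)] at k3
  have := abs_le.1 k1
  have := abs_le.1 k2
  have := abs_le.1 k3
  linarith [mul_nonneg (Real.sqrt_nonneg s) hT]

/-- Polynomials are Lipschitz for endomorphisms on the unit ball. -/
private theorem lift_poly (p : Polynomial ℝ) : ∃ K : ℝ, 0 ≤ K ∧ ∀ h : A, ‖h‖ ≤ 1 →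
    ∀ φ : A →⋆ₐ[ℂ] A, ‖φ (Polynomial.aeval h p) - Polynomial.aeval h p‖ ≤ K * ‖φ h - h‖ := by
  induction p using Polynomial.induction_on' with
  | add p q hp hq =>
    obtain ⟨K, hK, hp⟩ := hp
    obtain ⟨L, hL, hq⟩ := hq
    refine ⟨K + L, by positivity, fun h hh φ => ?_⟩
    rw [map_add, map_add, add_sub_add_comm, add_mul]
    exact (norm_add_le _ _).trans (add_le_add (hp h hh φ) (hq h hh φ))
  | monomial n c =>
    refine ⟨|c| * n, by positivity, fun h hh φ => ?_⟩
    rcases subsingleton_or_nontrivial A with hA | hA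
    · simp [Subsingleton.elim _ (0 : A)]
    have hm : ∀ k : ℕ, ‖φ (h ^ k) - h ^ k‖ ≤ k * ‖φ h - h‖ := by
      intro k
      induction k with
      | zero => simp
      | succ k ih =>
        have e : φ (h ^ (k + 1)) - h ^ (k + 1) =
            (φ (h ^ k) - h ^ k) * φ h + h ^ k * (φ h - h) := by
          rw [pow_succ, map_mul]; noncomm_ring
        rw [e, Nat.cast_succ, add_one_mul (k : ℝ)]
        refine (norm_add_le _ _).trans (add_le_add ?_ ?_)
        · exact ((norm_mul_le _ _).trans (mul_le_of_le_one_right (norm_nonneg _)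
            ((NonUnitalStarAlgHom.norm_apply_le φ h).trans hh))).trans ih
        · exact (norm_mul_le _ _).trans (mul_le_of_le_one_left (norm_nonneg _)
            ((norm_pow_le h k).trans (pow_le_one₀ (norm_nonneg _) hh)))
    rw [Polynomial.aeval_monomial]
    simp only [Algebra.algebraMap_eq_smul_one, smul_mul_assoc, one_mul]
    have e : φ (c • h ^ n) = c • φ (h ^ n) := by
      rw [← Complex.coe_smul, ← Complex.coe_smul, map_smul]
    rw [e, ← smul_sub, norm_smul, Real.norm_eq_abs, mul_assoc]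
    exact mul_le_mul_of_nonneg_left (hm n) (abs_nonneg _)

/-- Uniform continuity of the functional calculus for endomorphisms. -/
private theorem lift_cfc_unif {f : ℝ → ℝ} (hf : Continuous f) {η : ℝ} (hη : 0 < η) :
    ∃ δ > (0 : ℝ), ∀ h : A, IsSelfAdjoint h → ‖h‖ ≤ 1 →
      ∀ φ : A →⋆ₐ[ℂ] A, ‖φ h - h‖ ≤ δ → ‖φ (cfc f h) - cfc f h‖ ≤ η := by
  obtain ⟨p, hp⟩ := exists_polynomial_near_of_continuousOn (-1) 1 f hf.continuousOn (η / 4)
    (by linarith)
  obtain ⟨K, hK, hKp⟩ := lift_poly (A := A) p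
  refine ⟨η / (2 * (K + 1)), by positivity, fun h hh h1 φ hc => ?_⟩
  have h4 : K * ‖φ h - h‖ ≤ η / 2 := (mul_le_mul_of_nonneg_left hc hK).trans (by
    rw [mul_div_assoc', div_le_div_iff₀ (by positivity) two_pos]
    nlinarith)
  set P := Polynomial.aeval h p with hP
  have hPn : ‖cfc f h - P‖ ≤ η / 4 := by
    rw [hP, ← cfc_polynomial p h, ← cfc_sub f (fun r => p.eval r) h]
    refine norm_cfc_le (by linarith) fun r hr => ?_
    rw [Real.norm_eq_abs, abs_sub_comm]
    exact (hp r (Set.mem_Icc.2 (abs_le.1 ((lift_abs_le hr).trans h1)))).le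
  have e : φ (cfc f h) - cfc f h = (φ P - P) + (φ (cfc f h - P) - (cfc f h - P)) := by
    rw [map_sub]; abel
  rw [e]
  have h6 := (NonUnitalStarAlgHom.norm_apply_le φ (cfc f h - P)).trans hPn
  have := norm_add_le (φ P - P) (φ (cfc f h - P) - (cfc f h - P))
  have := norm_sub_le (φ (cfc f h - P)) (cfc f h - P)
  have := hKp h h1 φ
  linarith

/-- The square zero element is almost fixed with `b`. -/
private theorem norm_map_liftX_sub_le {β δp δm ε : ℝ}
    (hp : ∀ h : A, IsSelfAdjoint h → ‖h‖ ≤ 1 → ∀ φ : A →⋆ₐ[ℂ] A, ‖φ h - h‖ ≤ δp →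
      ‖φ (cfc (fun r : ℝ => max 0 r) h) - cfc (fun r : ℝ => max 0 r) h‖ ≤ ε / 3)
    (hm : ∀ h : A, IsSelfAdjoint h → ‖h‖ ≤ 1 → ∀ φ : A →⋆ₐ[ℂ] A, ‖φ h - h‖ ≤ δm →
      ‖φ (cfc (fun r : ℝ => max 0 (-r)) h) - cfc (fun r : ℝ => max 0 (-r)) h‖ ≤ ε / 3)
    (hβ1 : β ≤ ε / 3) (hβ2 : 4 * β ≤ δp) (hβ3 : 4 * β ≤ δm) {b : A} (hb : ‖b‖ ≤ 1)
    (φ : A →⋆ₐ[ℂ] A) (k1 : ‖φ b - b‖ ≤ β) : ‖φ (liftX b) - liftX b‖ ≤ ε := by
  obtain ⟨hh, hh1⟩ := lift_h_props hb
  obtain ⟨hPn, hMn⟩ := norm_liftPos_le hh hh1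
  set h := star b * b - b * star b with hh0
  have hbs : ‖star b‖ ≤ 1 := by rwa [norm_star]
  have hgb : ‖φ b‖ ≤ 1 := (NonUnitalStarAlgHom.norm_apply_le φ b).trans hb
  have hgh : ‖φ h - h‖ ≤ 4 * β := by
    have e1 : φ h - h = (star (φ b - b) * φ b + star b * (φ b - b)) -
        ((φ b - b) * star (φ b) + b * star (φ b - b)) := by
      simp only [hh0, map_sub, map_mul, map_star, star_sub]; noncomm_ring
    rw [e1]
    refine (norm_sub_le _ _).trans ((add_le_add (norm_add_le _ _) (norm_add_le _ _)).trans ?_)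
    have hs : ‖star (φ b - b)‖ = ‖φ b - b‖ := norm_star _
    have := (norm_mul_le (star (φ b - b)) (φ b)).trans (mul_le_of_le_one_right (norm_nonneg _) hgb)
    have := (norm_mul_le (star b) (φ b - b)).trans (mul_le_of_le_one_left (norm_nonneg _) hbs)
    have := (norm_mul_le (φ b - b) (star (φ b))).trans
      (mul_le_of_le_one_right (norm_nonneg _) ((norm_star _).trans_le hgb))
    have := (norm_mul_le b (star (φ b - b))).trans (mul_le_of_le_one_left (norm_nonneg _) hb)
    linarith
  have k3 : ‖φ (liftPos h) - liftPos h‖ ≤ ε / 3 := hp h hh hh1 φ (hgh.trans hβ2)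
  have k4 : ‖φ (liftNeg h) - liftNeg h‖ ≤ ε / 3 := hm h hh hh1 φ (hgh.trans hβ3)
  have hgP : ‖φ (liftPos h)‖ ≤ 1 := (NonUnitalStarAlgHom.norm_apply_le _ _).trans hPn
  rw [liftX, ← hh0]
  have e1 : φ (liftNeg h * b * liftPos h) - liftNeg h * b * liftPos h =
      ((φ (liftNeg h) - liftNeg h) * φ b * φ (liftPos h) +
        liftNeg h * (φ b - b) * φ (liftPos h)) +
      liftNeg h * b * (φ (liftPos h) - liftPos h) := by
    simp only [map_mul]; noncomm_ring
  rw [e1]
  refine norm_add₃_le.trans ?_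
  have j1 := (norm_mul_le ((φ (liftNeg h) - liftNeg h) * φ b) (φ (liftPos h))).trans
    ((mul_le_of_le_one_right (norm_nonneg _) hgP).trans
      ((norm_mul_le _ _).trans (mul_le_of_le_one_right (norm_nonneg _) hgb)))
  have j2 := (norm_mul_le (liftNeg h * (φ b - b)) (φ (liftPos h))).trans
    ((mul_le_of_le_one_right (norm_nonneg _) hgP).trans
      ((norm_mul_le _ _).trans (mul_le_of_le_one_left (norm_nonneg _) hMn)))
  have j3 := (norm_mul_le (liftNeg h * b) (φ (liftPos h) - liftPos h)).trans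
    (mul_le_of_le_one_left (norm_nonneg _)
      ((norm_mul_le _ _).trans (mul_le_one₀ hMn (norm_nonneg _) hb)))
  linarith

private theorem liftQ_le_self (ht : IsTrace t) {e : A} (h0 : 0 ≤ e) (hne : ‖e‖ ≤ 1) :
    liftQ t e ≤ t e := by
  refine ht.mono ?_
  rw [h0.isSelfAdjoint.star_eq]
  have e1 : e * e = cfc (fun r : ℝ => r * r) e := by
    rw [cfc_mul (fun r : ℝ => r) (fun r : ℝ => r) e, cfc_id' ℝ e]
  rw [e1]
  conv_rhs => rw [← cfc_id' ℝ e]
  refine cfc_mono (fun r hr => ?_) (by fun_prop) (by fun_prop)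
  have := spectrum_nonneg_of_nonneg h0 hr
  have h3 := lift_abs_le hr
  rw [abs_of_nonneg this] at h3
  nlinarith [h3.trans hne]

/-- The defect killer: `e₀ = f_δ (∑ dᵢ dᵢ* / 4M)`. -/
private theorem lift_exists_cut (M : ℕ) {δ : ℝ} (hδ : 0 < δ) (ι : Type*) [Fintype ι]
    (hM : Fintype.card ι < M) (d : ι → A) (hd : ∀ i, ‖d i‖ ≤ 2) :
    ∃ e : A, 0 ≤ e ∧ e ≤ 1 ∧ (∀ i, ‖(1 - e) * d i‖ ^ 2 ≤ 4 * M * δ) ∧
      ∀ t : A →ₗ[ℝ] ℝ, IsTrace t → ∀ s : ℝ, 0 ≤ s → (∀ i, liftQ t (d i) ≤ s) → t e ≤ s / δ := by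
  let f : ℝ → ℝ := fun r => max 0 (min 1 (r / δ))
  have hf : Continuous f := by fun_prop
  have hM0 : (0 : ℝ) < M := by exact_mod_cast (by omega : 0 < M)
  set c : ℝ := 1 / (4 * M) with hc
  have hc0 : 0 < c := by positivity
  have hcM : c * (4 * M) = 1 := by rw [hc]; field_simp
  have hι : (Fintype.card ι : ℝ) ≤ M := by exact_mod_cast hM.le
  set P : A := c • ∑ i, d i * star (d i) with hP
  have hP0 : 0 ≤ P := smul_nonneg hc0.le (Finset.sum_nonneg fun i _ => mul_star_self_nonneg _)
  have hP1 : ‖P‖ ≤ 1 := by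
    rw [hP, norm_smul, Real.norm_of_nonneg hc0.le, ← hcM]
    refine mul_le_mul_of_nonneg_left ((norm_sum_le _ _).trans ?_) hc0.le
    refine (Finset.sum_le_card_nsmul _ _ 4 fun i _ => ?_).trans ?_
    · rw [CStarRing.norm_self_mul_star]
      nlinarith [hd i, norm_nonneg (d i)]
    · rw [Finset.card_univ, nsmul_eq_mul]
      linarith
  have hPs := hP0.isSelfAdjoint
  set e := cfc f P with he
  have hf0 : ∀ r, 0 ≤ f r ∧ f r ≤ 1 := fun r =>
    ⟨le_max_left _ _, max_le zero_le_one (min_le_left _ _)⟩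
  refine ⟨e, cfc_nonneg fun r _ => (hf0 r).1, cfc_le_one f P fun r _ => (hf0 r).2,
    fun i => ?_, fun t ht s hs hti => ?_⟩
  · have es : star (1 - e) = 1 - e := by rw [star_sub, star_one, (cfc_predicate f P).star_eq]
    rw [pow_two, ← CStarRing.norm_self_mul_star, star_mul, es, mul_assoc, ← mul_assoc (d i),
      ← mul_assoc (1 - e)]
    have hle : d i * star (d i) ≤ (4 * M : ℝ) • P := by
      rw [hP, smul_smul, mul_comm, hcM, one_smul]
      exact Finset.single_le_sum (fun j _ => mul_star_self_nonneg (d j)) (Finset.mem_univ i)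
    have h2 : (1 - e) * (d i * star (d i)) * (1 - e) ≤
        (4 * M : ℝ) • ((1 - e) * P * (1 - e)) := by
      have := star_left_conjugate_le_conjugate hle (1 - e)
      rwa [es, mul_smul_comm, smul_mul_assoc] at this
    have h3 : (0 : A) ≤ (1 - e) * (d i * star (d i)) * (1 - e) := by
      have := star_left_conjugate_nonneg (mul_star_self_nonneg (d i)) (1 - e)
      rwa [es] at this
    refine (CStarAlgebra.norm_le_norm_of_nonneg_of_le h3 h2).trans ?_
    rw [norm_smul, Real.norm_of_nonneg (by positivity)]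
    refine mul_le_mul_of_nonneg_left ?_ (by positivity)
    have e1 : (1 - e) * P * (1 - e) = cfc (fun r => (1 - f r) * r * (1 - f r)) P := by
      have c0 : Continuous fun r => 1 - f r := continuous_const.sub hf
      have c1 : Continuous fun r => (1 - f r) * r := c0.mul continuous_id
      rw [cfc_mul (fun r => (1 - f r) * r) (fun r => 1 - f r) P c1.continuousOn c0.continuousOn,
        cfc_mul (fun r => 1 - f r) (fun r : ℝ => r) P c0.continuousOn continuousOn_id,
        cfc_id' ℝ P, cfc_sub (fun _ => 1) f P continuousOn_const hf.continuousOn,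
        cfc_const_one ℝ P]
    rw [e1]
    refine norm_cfc_le hδ.le fun r hr => ?_
    have hr0 : 0 ≤ r := spectrum_nonneg_of_nonneg hP0 hr
    have := hf0 r
    rw [Real.norm_eq_abs,
      abs_of_nonneg (mul_nonneg (mul_nonneg (by linarith) hr0) (by linarith))]
    rcases le_total δ r with h4 | h4
    · have : f r = 1 := by simp [f, (one_le_div hδ).2 h4]
      rw [this]; simp [hδ.le]
    · have h5 : (1 - f r) * r ≤ 1 * δ := mul_le_mul (by linarith) h4 hr0 zero_le_one
      have h6 := mul_le_mul h5 (by linarith : 1 - f r ≤ 1) (by linarith) (by linarith : (0 : ℝ) ≤ 1 * δ)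
      linarith
  · have h1 : t e ≤ t ((1 / δ) • P) := by
      have h2 : e ≤ cfc (fun r : ℝ => 1 / δ * r) P := by
        refine cfc_mono (fun r hr => ?_) hf.continuousOn (by fun_prop)
        have hr0 : 0 ≤ r := spectrum_nonneg_of_nonneg hP0 hr
        refine max_le (by positivity) ((min_le_right _ _).trans (le_of_eq ?_))
        ring
      rw [cfc_const_mul _ (fun r : ℝ => r) P, cfc_id' ℝ P] at h2
      exact ht.mono h2
    refine h1.trans ?_
    rw [map_smul, smul_eq_mul, hP, map_smul, map_sum, smul_eq_mul]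
    have h2 : ∑ i, t (d i * star (d i)) ≤ M * s := by
      refine (Finset.sum_le_card_nsmul _ _ s fun i _ => ?_).trans ?_
      · rw [ht.comm]; exact hti i
      · rw [Finset.card_univ, nsmul_eq_mul]
        exact mul_le_mul_of_nonneg_right hι hs
    calc 1 / δ * (c * ∑ i, t (d i * star (d i))) ≤ 1 / δ * (c * (M * s)) := by gcongr
      _ ≤ 1 / δ * s := by
        refine mul_le_mul_of_nonneg_left ?_ (by positivity)
        nlinarith [mul_nonneg hs hc0.le]
      _ = s / δ := by ring

/-- The Følner average of the translates of `e₀`. -/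
private noncomputable def liftAvg (sys : Sys G A) (F : Finset G) (e₀ : A) : A :=
  (1 / (F.card : ℝ)) • ∑ f ∈ F, sys.act f e₀

private theorem liftAvg_mem {sys : Sys G A} {F : Finset G} (hF : F.Nonempty) {e₀ : A}
    (h0 : 0 ≤ e₀) (h1 : e₀ ≤ 1) :
    0 ≤ liftAvg sys F e₀ ∧ liftAvg sys F e₀ ≤ 1 ∧
      1 - liftAvg sys F e₀ = (1 / (F.card : ℝ)) • ∑ f ∈ F, (1 - sys.act f e₀) := by
  have hc : (0 : ℝ) < F.card := by exact_mod_cast hF.card_pos
  have hpos : ∀ (f : G) (x : A), 0 ≤ x → 0 ≤ sys.act f x := fun f x hx => by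
    obtain ⟨y, rfl⟩ := CStarAlgebra.nonneg_iff_eq_star_mul_self.mp hx
    rw [map_mul, map_star]
    exact star_mul_self_nonneg _
  have e : 1 - liftAvg sys F e₀ = (1 / (F.card : ℝ)) • ∑ f ∈ F, (1 - sys.act f e₀) := by
    rw [Finset.sum_sub_distrib, smul_sub, Finset.sum_const, ← Nat.cast_smul_eq_nsmul ℝ, smul_smul,
      one_div_mul_cancel hc.ne', one_smul]
    rfl
  refine ⟨smul_nonneg (by positivity) (Finset.sum_nonneg fun f _ => hpos f _ h0), ?_, e⟩
  rw [← sub_nonneg, e]
  refine smul_nonneg (by positivity) (Finset.sum_nonneg fun f _ => ?_)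
  have := hpos f _ (sub_nonneg.2 h1)
  rwa [map_sub, map_one] at this

private theorem norm_le_one_of_mem {x : A} (h0 : 0 ≤ x) (h1 : x ≤ 1) : ‖x‖ ≤ 1 := by
  rcases subsingleton_or_nontrivial A with hA | hA
  · simp [Subsingleton.elim x 0]
  · exact (CStarAlgebra.norm_le_norm_of_nonneg_of_le h0 h1).trans norm_one.le

/-- An average is bounded by a common bound. -/
private theorem norm_avg_le {ι : Type*} (F : Finset ι) (v : ι → A) {r : ℝ} (hF : F.Nonempty)
    (h : ∀ i ∈ F, ‖v i‖ ≤ r) : ‖(1 / (F.card : ℝ)) • ∑ i ∈ F, v i‖ ≤ r := by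
  have hc : (0 : ℝ) < F.card := by exact_mod_cast hF.card_pos
  rw [norm_smul, Real.norm_of_nonneg (by positivity), div_mul_eq_mul_div, one_mul, div_le_iff₀ hc]
  refine (norm_sum_le _ _).trans ((Finset.sum_le_card_nsmul _ _ r h).trans (le_of_eq ?_))
  rw [nsmul_eq_mul, mul_comm]

private theorem liftAvg_inv (sys : Sys G A) {F : Finset G} (hF : F.Nonempty) {e₀ : A}
    (he : ‖e₀‖ ≤ 1) (g : G) {ρ : ℝ} [DecidableEq G]
    (hg : (((F.image (g * ·)) \ F).card : ℝ) ≤ ρ * F.card) :
    ‖sys.act g (liftAvg sys F e₀) - liftAvg sys F e₀‖ ≤ 2 * ρ := by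
  have hc : (0 : ℝ) < F.card := by exact_mod_cast hF.card_pos
  set v : G → A := fun f => sys.act f e₀ with hv0
  have hv : ∀ f, ‖v f‖ ≤ 1 := fun f => (NonUnitalStarAlgHom.norm_apply_le (sys.act f) e₀).trans he
  set F' := F.image (g * ·) with hF'
  have hcard : F'.card = F.card := Finset.card_image_of_injective _ (mul_right_injective g)
  have e1 : sys.act g (liftAvg sys F e₀) = (1 / (F.card : ℝ)) • ∑ f ∈ F', v f := by
    rw [hF', Finset.sum_image fun a _ b _ h => mul_left_cancel h, liftAvg, ← Complex.coe_smul,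
      map_smul, Complex.coe_smul, map_sum]
    simp only [hv0, sys.mul]
  have e2 : ∑ f ∈ F', v f - ∑ f ∈ F, v f = ∑ f ∈ F' \ F, v f - ∑ f ∈ F \ F', v f := by
    rw [← Finset.sum_inter_add_sum_sdiff F' F, ← Finset.sum_inter_add_sum_sdiff F F',
      Finset.inter_comm F F']
    abel
  have e3 : (F \ F').card = (F' \ F).card := (Finset.card_sdiff_comm hcard).symm
  rw [e1, liftAvg, ← smul_sub, e2, norm_smul, Real.norm_of_nonneg (by positivity),
    div_mul_eq_mul_div, one_mul, div_le_iff₀ hc]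
  refine (norm_sub_le _ _).trans ?_
  have b1 := (norm_sum_le (F' \ F) v).trans (Finset.sum_le_card_nsmul _ _ 1 fun f _ => hv f)
  have b2 := (norm_sum_le (F \ F') v).trans (Finset.sum_le_card_nsmul _ _ 1 fun f _ => hv f)
  rw [nsmul_eq_mul, mul_one] at b1 b2
  rw [e3] at b2
  nlinarith

end LiftAux

theorem invSquareZeroSys_of_mcduff [Countable G] (hG : IsFolner G) (sys : Sys G E)
    (hM : ∀ (Q : Finset G) (ε : ℝ), 0 < ε → ∃ x : E, ‖x‖ ≤ 1 ∧ ∀ t : E →ₗ[ℝ] ℝ, IsTrace t →
      t (star (x * x) * (x * x)) ≤ ε * t 1 ∧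
      t (star (star x * x + x * star x - 1) * (star x * x + x * star x - 1)) ≤ ε * t 1 ∧
      ∀ g ∈ Q, t (star (sys.act g x - x) * (sys.act g x - x)) ≤ ε * t 1) :
    InvSquareZeroSys sys := by
  letI := CStarAlgebra.spectralOrder E
  haveI := CStarAlgebra.spectralOrderedRing E
  classical
  intro S ε hε
  obtain ⟨δp, hδp, hp⟩ := lift_cfc_unif (A := E) (f := fun r : ℝ => max 0 r) (by fun_prop)
    (show (0 : ℝ) < ε / 3 by linarith)
  obtain ⟨δm, hδm, hm⟩ := lift_cfc_unif (A := E) (f := fun r : ℝ => max 0 (-r)) (by fun_prop)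
    (show (0 : ℝ) < ε / 3 by linarith)
  set β := min (ε / 3) (min (δp / 4) (δm / 4)) with hβ0
  have hβ : 0 < β := lt_min (by linarith) (lt_min (by linarith) (by linarith))
  have hβ1 : β ≤ ε / 3 := min_le_left _ _
  have hβ2 : 4 * β ≤ δp := by
    have := (min_le_right (ε / 3) (min (δp / 4) (δm / 4))).trans (min_le_left _ _)
    linarith
  have hβ3 : 4 * β ≤ δm := by
    have := (min_le_right (ε / 3) (min (δp / 4) (δm / 4))).trans (min_le_right _ _)
    linarith
  obtain ⟨F, hF, hFS⟩ := hG S (β / 12) (by linarith)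
  set M := F.card * S.card + 1 with hM0
  have hMpos : (0 : ℝ) < M := by positivity
  set δ := min 1 (β ^ 2 / (16 * M)) with hδ0
  have hδ : 0 < δ := lt_min one_pos (by positivity)
  set σ := (ε / 500) ^ 2 with hσ0
  have hσ : 0 < σ := by positivity
  obtain ⟨a, ha, hat⟩ := hM S (σ * δ) (mul_pos hσ hδ)
  have hiso : ∀ (g : G) (y : E), sys.act g (sys.act g⁻¹ y) = y := fun g y => by
    rw [← sys.mul, mul_inv_cancel, sys.one]
  let d : ↥(F ×ˢ S) → E := fun q => sys.act q.1.1⁻¹ (sys.act q.1.2 a - a)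
  have hd2 : ∀ q, ‖d q‖ ≤ 2 := fun q => by
    refine (NonUnitalStarAlgHom.norm_apply_le _ _).trans ((norm_sub_le _ _).trans ?_)
    linarith [(NonUnitalStarAlgHom.norm_apply_le (sys.act q.1.2) a).trans ha]
  obtain ⟨e₀, he0, he1, hkill, htr⟩ := lift_exists_cut M hδ ↥(F ×ˢ S)
    (by rw [Fintype.card_coe, Finset.card_product]; omega) d hd2
  set e := liftAvg sys F e₀ with he
  obtain ⟨h0, h1, hone⟩ := liftAvg_mem (sys := sys) hF he0 he1
  have hne : ‖e‖ ≤ 1 := norm_le_one_of_mem h0 h1
  have hne' : ‖1 - e‖ ≤ 1 := norm_le_one_of_mem (sub_nonneg.2 h1) (sub_le_self 1 h0)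
  have hne0 : ‖e₀‖ ≤ 1 := norm_le_one_of_mem he0 he1
  set b := (1 - e) * a with hb0
  have hb : ‖b‖ ≤ 1 := (norm_mul_le _ _).trans (mul_le_one₀ hne' (norm_nonneg _) ha)
  refine ⟨liftX b, norm_liftX_le hb, liftX_sq hb, fun g hg => ?_, fun t ht => ?_⟩
  · have k1 : ‖sys.act g b - b‖ ≤ β := by
      have hρ := liftAvg_inv sys hF hne0 g (hFS g hg)
      rw [← he] at hρ
      have hed : ‖(1 - e) * (sys.act g a - a)‖ ≤ β / 2 := by
        rw [he, hone, smul_mul_assoc, Finset.sum_mul]
        refine norm_avg_le F _ hF fun f hf => ?_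
        have e1 : (1 - sys.act f e₀) * (sys.act g a - a) = sys.act f ((1 - e₀) * d ⟨(f, g), Finset.mem_product.2 ⟨hf, hg⟩⟩) := by
          simp only [d, map_mul, map_sub, map_one, hiso]
        rw [e1]
        refine (NonUnitalStarAlgHom.norm_apply_le _ _).trans ?_
        have h2 := hkill ⟨(f, g), Finset.mem_product.2 ⟨hf, hg⟩⟩
        have h3 : 4 * (M : ℝ) * δ ≤ (β / 2) ^ 2 := by
          refine (mul_le_mul_of_nonneg_left (min_le_right _ _) (by positivity)).trans (le_of_eq ?_)
          field_simp; ring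
        replace h2 := h2.trans h3
        exact (pow_le_pow_iff_left₀ (norm_nonneg _) (by linarith) two_ne_zero).1 h2
      have e1 : sys.act g b - b = ((1 - e) * (sys.act g a - a) + (e - sys.act g e) * (sys.act g a - a)) + (e - sys.act g e) * a := by
        simp only [hb0, map_mul, map_sub, map_one]; noncomm_ring
      rw [e1]
      have hga : ‖sys.act g a - a‖ ≤ 2 := (norm_sub_le _ _).trans
        (by linarith [(NonUnitalStarAlgHom.norm_apply_le (sys.act g) a).trans ha])
      rw [norm_sub_rev] at hρ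
      have h4 := (norm_mul_le (e - sys.act g e) (sys.act g a - a)).trans
        (mul_le_mul hρ hga (norm_nonneg _) (by linarith))
      have h5 := (norm_mul_le (e - sys.act g e) a).trans (mul_le_mul hρ ha (norm_nonneg _) (by linarith))
      refine (norm_add₃_le).trans ?_
      linarith
    exact norm_map_liftX_sub_le hp hm hβ1 hβ2 hβ3 hb (sys.act g) k1
  · have hT : 0 ≤ t 1 := one_nonneg_of ht
    have hσT : 0 ≤ σ * δ * t 1 := by positivity
    have hte : t e ≤ σ * t 1 := by
      rw [he, liftAvg, map_smul, map_sum, smul_eq_mul, one_div_mul_eq_div,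
        div_le_iff₀ (by exact_mod_cast hF.card_pos : (0 : ℝ) < F.card)]
      refine (Finset.sum_le_card_nsmul _ _ (σ * t 1) fun f _ => ?_).trans
        (le_of_eq (by rw [nsmul_eq_mul, mul_comm]))
      rw [← pullLin_apply]
      refine (htr _ (ht.pull (sys.act f)) (σ * δ * t 1) hσT fun q => ?_).trans (le_of_eq ?_)
      · rw [liftQ, ← map_star, ← map_mul, pullLin_apply, ← sys.mul, ← pullLin_apply t]
        have h2 := (hat _ (ht.pull (sys.act (f * q.1.1⁻¹)))).2.2 q.1.2 (Finset.mem_product.1 q.2).2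
        rwa [pullLin_apply t _ 1, map_one] at h2
      · field_simp
    have hle : σ * δ * t 1 ≤ σ * t 1 :=
      mul_le_mul_of_nonneg_right (mul_le_of_le_one_right hσ.le (min_le_left _ _)) hT
    have hQe : liftQ t e ≤ σ * t 1 := (liftQ_le_self ht h0 hne).trans hte
    obtain ⟨hs2, hd2', -⟩ := hat t ht
    have hfin := lift_trace_bound ht ha hne' hσ.le (hd2'.trans hle) (hs2.trans hle) hQe
    rw [← hb0, hσ0, Real.sqrt_sq (by positivity)] at hfin
    rw [map_sub]
    linarith

end Vale.P095.SI
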